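import Crest.Agent.H1Two.Halving
import Crest.Prelude.Def_TwoWay

set_option autoImplicit false

namespace Crest.Agent.H1Two

open Crest.TwoWay

variable {α σ : Type*} (B : TwoWayNFA α σ)

/-- behaviour on one cell -/
inductive CellR (c : Cell α) : Option σ → Bool × Option σ → Prop
  | top : CellR c none (true, none)
  | acc {q : σ} : q ∈ B.accept → CellR c (some q) (true, none)
  | right {q q' : σ} : q ∉ B.accept → (q', HeadMove.moveRight) ∈ B.step q c → c ≠ Cell.rightEnd →
      CellR c (some q) (true, some q')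
  | left {q q' : σ} : q ∉ B.accept → (q', HeadMove.moveLeft) ∈ B.step q c → c ≠ Cell.leftEnd →
      CellR c (some q) (false, some q')
  | stay {q q' : σ} {e : Bool × Option σ} : q ∉ B.accept → (q', HeadMove.stay) ∈ B.step q c →
      CellR c (some q') e → CellR c (some q) e

def cellT (c : Cell α) : TR (Option σ) := fun π e => CellR B c π.2 e

def beh (T : List (Cell α)) : TR (Option σ) := (T.map (cellT B)).prod

theorem beh_append (T T' : List (Cell α)) : beh B (T ++ T') = beh B T * beh B T' := by
  simp [beh]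

theorem beh_cons (c : Cell α) (T : List (Cell α)) : beh B (c :: T) = cellT B c * beh B T := by
  simp [beh]

theorem beh_top (T : List (Cell α)) : beh B T (true, none) (true, none) := by
  induction T with
  | nil => rfl
  | cons c T ih =>
    rw [beh_cons, mul_def]
    exact star_thrB (ρ := (true, none)) CellR.top rfl rfl (.exitF ih rfl rfl)

theorem cellT_det (hB : B.IsDeterministic) (c : Cell α) : Det (cellT B c) := by
  rintro ⟨d, q⟩ e e' h h'
  change CellR B c q e at h
  change CellR B c q e' at h'
  induction h generalizing e' with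
  | top => cases h'; rfl
  | acc h1 => cases h' <;> first | rfl | contradiction
  | right h1 h2 _ =>
    cases h' with
    | acc h3 => exact absurd h3 h1
    | right _ h3 _ => cases hB _ _ h2 h3; rfl
    | left _ h3 _ => cases hB _ _ h2 h3
    | stay _ h3 _ => cases hB _ _ h2 h3
  | left h1 h2 _ =>
    cases h' with
    | acc h3 => exact absurd h3 h1
    | right _ h3 _ => cases hB _ _ h2 h3
    | left _ h3 _ => cases hB _ _ h2 h3; rfl
    | stay _ h3 _ => cases hB _ _ h2 h3
  | stay h1 h2 _ ih =>
    cases h' with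
    | acc h3 => exact absurd h3 h1
    | right _ h3 _ => cases hB _ _ h2 h3
    | left _ h3 _ => cases hB _ _ h2 h3
    | stay _ h3 h4 => cases hB _ _ h2 h3; exact ih _ h4

theorem beh_det (hB : B.IsDeterministic) (T : List (Cell α)) : Det (beh B T) := by
  induction T with
  | nil => exact Det.one
  | cons c T ih => rw [beh_cons]; exact (cellT_det B hB c).mul ih

section sem
variable (w : List α)

theorem scan_left {i : ℕ} : scan w i = Cell.leftEnd ↔ i = 0 := by
  unfold scan
  split_ifs with h
  · simp [h]
  · cases w[i - 1]? <;> simp [h]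

theorem scan_right {i : ℕ} : scan w i = Cell.rightEnd ↔ w.length + 1 ≤ i := by
  unfold scan
  split_ifs with h
  · simp [h]
  · rcases hw : w[i - 1]? with _ | a
    · simp only [true_iff]
      rw [List.getElem?_eq_none_iff] at hw; omega
    · simp only [reduceCtorEq, false_iff]
      obtain ⟨h1, _⟩ := List.getElem?_eq_some_iff.1 hw
      omega

def Good : Option σ → ℕ → Prop
  | none, _ => True
  | some q, i => ∃ c : σ × ℕ, Relation.ReflTransGen (B.Step w) (q, i) c ∧ c.1 ∈ B.accept

def GP (π : Bool × Option σ) (b : ℕ) : Prop := Good B w π.2 (if π.1 then b else b - 1)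

def Realize (W : TR (Option σ)) (i j : ℕ) : Prop :=
  ∀ π e, W π e → GP B w e (if e.1 then j else i) → GP B w π (if π.1 then i else j)

theorem realize_mul {U V : TR (Option σ)} {i k j : ℕ} (hU : Realize B w U i k)
    (hV : Realize B w V k j) : Realize B w (U * V) i j := by
  have key : ∀ ρ e, Out (two true U V) ρ e → GP B w e (if e.1 then j else i) → GP B w ρ k := by
    intro ρ e h he
    refine h.ind (motive := fun ρ => GP B w ρ k) ?_ ?_ ?_ ?_
    · intro π a b c; simpa [b] using hV _ _ a (by simpa [c] using he)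
    · intro π a b c; simpa [b] using hU _ _ a (by simpa [c] using he)
    · intro π ρ a b c _ ih; simpa [b] using hV _ _ a (by simpa [c] using ih)
    · intro π ρ a b c _ ih; simpa [b] using hU _ _ a (by simpa [c] using ih)
  intro π e h he
  by_cases hd : π.1 = true
  · rcases star_elimB h hd with ⟨h1, h2⟩ | ⟨ρ, h1, h2, h3⟩
    · simpa [hd] using hU _ _ h1 (by simpa [h2] using he)
    · simpa [hd] using hU _ _ h1 (by simpa [h2] using key _ _ h3 he)
  · rcases star_elimF h hd with ⟨h1, h2⟩ | ⟨ρ, h1, h2, h3⟩
    · simpa [hd] using hV _ _ h1 (by simpa [h2] using he)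
    · simpa [hd] using hV _ _ h1 (by simpa [h2] using key _ _ h3 he)

theorem realize_cell (i : ℕ) : Realize B w (cellT B (scan w i)) i (i + 1) := by
  rintro ⟨d, q⟩ e h he
  have : Good B w q i := by
    change CellR B _ q e at h
    induction h with
    | top => trivial
    | acc h1 => exact ⟨_, .refl, h1⟩
    | right h1 h2 h3 =>
      obtain ⟨c, k1, k2⟩ := he
      refine ⟨c, .head ⟨_, h2, ?_⟩ k1, k2⟩
      simp only [movePos]
      rw [if_neg (fun h => h3 ((scan_right w).2 h))]; rfl
    | left h1 h2 h3 =>
      obtain ⟨c, k1, k2⟩ := he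
      refine ⟨c, .head ⟨_, h2, ?_⟩ k1, k2⟩
      simp only [movePos]
      rw [if_neg (fun h => h3 ((scan_left w).2 h))]; rfl
    | stay h1 h2 _ ih =>
      obtain ⟨c, k1, k2⟩ := ih he
      exact ⟨c, .head ⟨_, h2, rfl⟩ k1, k2⟩
  cases d <;> simpa [GP] using this

theorem realize_seg (n : ℕ) : ∀ i,
    Realize B w (beh B ((List.range' i n).map (scan w))) i (i + n) := by
  induction n with
  | zero => intro i π e h he; cases h; simpa using he
  | succ n ih =>
    intro i
    rw [List.range'_succ, List.map_cons, beh_cons, show i + (n + 1) = i + 1 + n by ring]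
    exact realize_mul B w (realize_cell B w i) (ih (i + 1))

def tape : List (Cell α) := Cell.leftEnd :: (w.map Cell.letter ++ [Cell.rightEnd])

theorem tape_eq : tape w = (List.range' 0 (w.length + 2)).map (scan w) := by
  apply List.ext_getElem
  · simp [tape]
  · intro i h1 h2
    simp only [List.getElem_map, List.getElem_range', zero_add, one_mul]
    rcases i with _ | i
    · simp [tape, scan]
    · simp only [tape, List.getElem_cons_succ, scan, Nat.add_one_ne_zero, if_false,
        Nat.add_sub_cancel]
      by_cases hi : i < w.length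
      · rw [List.getElem_append_left (by simpa using hi), List.getElem?_eq_getElem hi]; simp
      · rw [List.getElem_append_right (by simpa using hi),
          List.getElem?_eq_none (not_lt.1 hi)]; simp

theorem accepts_of_beh (h : beh B (tape w) (true, some B.start) (true, none)) : B.Accepts w := by
  rw [tape_eq] at h
  have := realize_seg B w _ 0 _ _ h trivial
  exact this

theorem beh_of_accepts (h : B.Accepts w) : beh B (tape w) (true, some B.start) (true, none) := by
  classical
  let U : ℕ → TR (Option σ) := fun i => beh B ((List.range' 0 i).map (scan w))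
  let V : ℕ → TR (Option σ) := fun i => beh B ((List.range' i (w.length + 2 - i)).map (scan w))
  let A : ℕ → Bool × Option σ → Prop := fun i π => Out (two true (U i) (V i)) π (true, none)
  have hU : ∀ i, U (i + 1) = U i * cellT B (scan w i) := by
    intro i
    simp only [U]
    rw [List.range'_concat, List.map_append, beh_append]; simp [beh]
  have hV : ∀ i, i ≤ w.length + 1 → V i = cellT B (scan w i) * V (i + 1) := by
    intro i hi
    simp only [V]
    rw [show w.length + 2 - i = (w.length + 2 - (i + 1)) + 1 by omega, List.range'_succ,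
      List.map_cons, beh_cons]
  let P : Option σ → ℕ → Prop := fun q i => ∃ e, CellR B (scan w i) q e ∧
    (e.1 = true → A (i + 1) e) ∧ (e.1 ≠ true → A i e)
  have hP : ∀ q i, i ≤ w.length + 1 → P q i → A i (true, q) ∧ A (i + 1) (false, q) := by
    rintro q i hi ⟨e, h1, h2, h3⟩
    by_cases he : e.1 = true
    · have h4 := h2 he
      constructor
      · simp only [A] at h4 ⊢
        rw [hV i hi, mul_def]
        rw [hU i, mul_def] at h4
        exact shift (σ := (true, q)) h1 rfl he h4
      · refine Out.bounceB ?_ (by simp) he h4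
        rw [hU i, mul_def]
        exact star_capF (π := (false, q)) h1 (by simp) he
    · have h4 := h3 he
      constructor
      · refine Out.bounceF ?_ rfl he h4
        rw [hV i hi, mul_def]
        exact star_capB (π := (true, q)) h1 rfl he
      · simp only [A] at h4 ⊢
        rw [hU i, mul_def', ← two_false]
        rw [hV i hi, mul_def', ← two_false] at h4
        exact shift (σ := (false, q)) h1 rfl (by simpa using he) h4
  have htop : ∀ i, A i (true, none) := fun i => .exitF (beh_top B _) rfl rfl
  obtain ⟨c, h1, h2⟩ := h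
  have key : ∀ s : σ × ℕ, Relation.ReflTransGen (B.Step w) s c → s.2 ≤ w.length + 1 →
      P (some s.1) s.2 := by
    intro s hs
    induction hs using Relation.ReflTransGen.head_induction_on with
    | refl => intro _; exact ⟨_, .acc h2, fun _ => htop _, fun h => absurd rfl h⟩
    | @head s t hst _ ih =>
      intro hs
      by_cases ha : s.1 ∈ B.accept
      · exact ⟨_, .acc ha, fun _ => htop _, fun h => absurd rfl h⟩
      obtain ⟨m, k1, k2⟩ := hst
      cases m with
      | moveLeft =>
        simp only [movePos] at k2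
        split_ifs at k2 with h0
        have k3 : s.2 = t.2 + 1 := by have := Option.some.inj k2; omega
        refine ⟨_, .left ha k1 (fun h => h0 ((scan_left w).1 h)), fun h => by simp at h, fun _ => ?_⟩
        rw [k3]
        exact (hP _ _ (by omega) (ih (by omega))).2
      | stay =>
        have k3 : s.2 = t.2 := Option.some.inj k2
        obtain ⟨e, k4, k5⟩ := ih (k3 ▸ hs)
        rw [← k3] at k4 k5
        exact ⟨e, .stay ha k1 k4, k5⟩
      | moveRight =>
        simp only [movePos] at k2
        split_ifs at k2 with h0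
        have k3 : s.2 + 1 = t.2 := Option.some.inj k2
        refine ⟨_, .right ha k1 (fun h => h0 ((scan_right w).1 h)), fun _ => ?_,
          fun h => absurd rfl h⟩
        rw [k3]
        exact (hP _ _ (by omega) (ih (by omega))).1
  have h3 := (hP _ _ (Nat.zero_le _) (key _ h1 (Nat.zero_le _))).1
  have h4 : (U 0 * V 0) (true, some B.start) (true, none) :=
    star_thrB (ρ := (true, some B.start)) rfl rfl rfl h3
  have h5 : U 0 = 1 := rfl
  rw [h5, one_mul] at h4
  rw [tape_eq]
  exact h4

end sem

theorem accepts_mono {x y : List α}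
    (h : beh B (x.map Cell.letter) ≤ beh B (y.map Cell.letter)) (u v : List α)
    (hx : B.Accepts (u ++ x ++ v)) : B.Accepts (u ++ y ++ v) := by
  apply accepts_of_beh
  have := beh_of_accepts B _ hx
  simp only [tape, List.map_append, beh_cons, beh_append] at this ⊢
  exact mul_mono le_rfl (mul_mono (mul_mono (mul_mono le_rfl h) le_rfl) le_rfl) _ _ this

theorem wordRel_append {h : ℕ} (u v : List (Fin h → Fin h → Bool)) (a c : Fin h) :
    wordRel (u ++ v) a c ↔ ∃ b, wordRel u a b ∧ wordRel v b c := by
  induction u generalizing a with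
  | nil => simp [wordRel]
  | cons R u ih =>
    simp only [List.cons_append, wordRel, ih]
    exact ⟨fun ⟨b, h1, d, h2, h3⟩ => ⟨d, ⟨b, h1, h2⟩, h3⟩,
      fun ⟨d, ⟨b, h1, h2⟩, h3⟩ => ⟨b, h1, d, h2, h3⟩⟩

theorem live_test {h : ℕ} (x : List (Fin h → Fin h → Bool)) (a b : Fin h) :
    [fun i j => decide (i = a ∧ j = a)] ++ x ++ [fun i j => decide (i = b ∧ j = b)] ∈ liveness h ↔
      wordRel x a b := by
  change (∃ i j, wordRel _ i j) ↔ _
  simp only [wordRel_append, wordRel, decide_eq_true_eq]
  constructor
  · rintro ⟨i, j, k, ⟨l, ⟨m, ⟨_, rfl⟩, rfl⟩, h⟩, n, ⟨rfl, _⟩, _⟩; exact h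
  · intro h; exact ⟨a, b, b, ⟨a, ⟨a, ⟨rfl, rfl⟩, rfl⟩, h⟩, b, ⟨rfl, rfl⟩, rfl⟩

/-- the monoid of pairs (behaviour, relation) of words -/
def wordMon {h : ℕ} (B : TwoWayNFA (Fin h → Fin h → Bool) σ) :
    Submonoid (TR (Option σ) × BR (Fin h)) where
  carrier := {m | ∃ w : List (Fin h → Fin h → Bool),
    m.1 = beh B (w.map Cell.letter) ∧ m.2 = wordRel w}
  one_mem' := ⟨[], rfl, rfl⟩
  mul_mem' := by
    rintro x y ⟨u, h1, h2⟩ ⟨v, h3, h4⟩
    refine ⟨u ++ v, by rw [Prod.fst_mul, h1, h3, List.map_append, beh_append], ?_⟩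
    refine BR.ext fun a c => ?_
    rw [Prod.snd_mul, BR.mul_apply, h2, h4, wordRel_append]

theorem wordMon_surj {h : ℕ} (B : TwoWayNFA (Fin h → Fin h → Bool) σ) (R : BR (Fin h)) :
    ∃ m ∈ wordMon B, m.2 = R := by
  classical
  refine ⟨(beh B ([fun i j => decide (R i j)].map Cell.letter), wordRel [fun i j => decide (R i j)]),
    ⟨_, rfl, rfl⟩, BR.ext fun a b => ?_⟩
  simp [wordRel]

theorem co_bound {h : ℕ} (hh : 2 ≤ h) [Fintype σ] (B : TwoWayNFA (Fin h → Fin h → Bool) σ)
    (hB : B.language = (liveness h)ᶜ) : 2 ^ ((h - 2) / 31) ≤ 2 * (Fintype.card σ + 1) := by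
  have := abstract_bound (wordMon B) (wordMon_surj B) (by
    rintro x ⟨u, h1, h2⟩ y ⟨v, h3, h4⟩ _ _ hle a b hab
    rw [h2]; rw [h4] at hab
    by_contra hn
    rw [← live_test] at hn hab
    have k1 : B.Accepts _ := (Set.ext_iff.1 hB _).2 hn
    exact (Set.ext_iff.1 hB _).1 (accepts_mono B (h1 ▸ h3 ▸ hle) _ _ k1) hab) (by simpa using hh)
  simpa using this

theorem det_bound {h : ℕ} (hh : 2 ≤ h) [Fintype σ] (B : TwoWayNFA (Fin h → Fin h → Bool) σ)
    (hD : B.IsDeterministic) (hB : B.language = liveness h) :
    2 ^ ((h - 2) / 31) ≤ 2 * (Fintype.card σ + 1) := by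
  have := abstract_bound (wordMon B) (wordMon_surj B) (by
    rintro x ⟨u, h1, h2⟩ y ⟨v, h3, h4⟩ e1 e2 hle a b hab
    have heq : x.1 = y.1 := Det.eq_of_le (h3 ▸ beh_det B hD _) hle (congrArg Prod.fst e1)
      (congrArg Prod.fst e2)
    rw [h2]; rw [h4] at hab
    rw [← live_test] at hab ⊢
    have k1 : B.Accepts _ := (Set.ext_iff.1 hB _).2 hab
    exact (Set.ext_iff.1 hB _).1 (accepts_mono B (h1 ▸ h3 ▸ heq.ge) _ _ k1)) (by simpa using hh)
  simpa using this

/-! ### The small automaton for liveness -/

def liveAut (h N : ℕ) (hN : h + 2 ≤ N) : TwoWayNFA (Fin h → Fin h → Bool) (Fin N) where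
  start := ⟨h, by omega⟩
  accept := {q | q.val = h + 1}
  step q c := {p | (q.val = h ∧ c = Cell.leftEnd ∧ p.1.val < h ∧ p.2 = HeadMove.moveRight) ∨
    (∃ (a b : Fin h) (R : Fin h → Fin h → Bool), q.val = a.val ∧ p.1.val = b.val ∧
      c = Cell.letter R ∧ R a b = true ∧ p.2 = HeadMove.moveRight) ∨
    (q.val < h ∧ c = Cell.rightEnd ∧ p.1.val = h + 1 ∧ p.2 = HeadMove.stay)}

theorem liveAut_noLeft (h N : ℕ) (hN : h + 2 ≤ N) : (liveAut h N hN).NoLeftMoves := by
  rintro q c p (⟨_, _, _, h⟩ | ⟨_, _, _, _, _, _, _, h⟩ | ⟨_, _, _, h⟩) <;> rw [h] <;> simp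

theorem scan_letter {w : List α} {i : ℕ} {R : α} :
    scan w (i + 1) = Cell.letter R ↔ w[i]? = some R := by
  unfold scan
  simp only [Nat.add_one_ne_zero, if_false, Nat.add_sub_cancel]
  cases w[i]? <;> simp

theorem liveAut_lang (h N : ℕ) (hN : h + 2 ≤ N) : (liveAut h N hN).language = liveness h := by
  ext w
  constructor
  · rintro ⟨c, h1, h2⟩
    have key : ∀ c : Fin N × ℕ,
        Relation.ReflTransGen ((liveAut h N hN).Step w) ((liveAut h N hN).start, 0) c →
        (c.1.val = h ∧ c.2 = 0) ∨
        (∃ (a b : Fin h) (i : ℕ), c.1.val = b.val ∧ c.2 = i + 1 ∧ wordRel (w.take i) a b) ∨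
        w ∈ liveness h := by
      intro c hc
      induction hc with
      | refl => exact Or.inl ⟨rfl, rfl⟩
      | @tail s t _ hst ih =>
        obtain ⟨m, k1, k2⟩ := hst
        rcases ih with ⟨i1, i2⟩ | ⟨a, b, i, i1, i2, i3⟩ | ih
        · rcases k1 with ⟨_, _, k3, k4⟩ | ⟨a, _, _, k3, _⟩ | ⟨k3, _⟩
          · cases k4
            rw [i2] at k2
            simp only [movePos] at k2
            split_ifs at k2
            exact Or.inr (Or.inl ⟨⟨_, k3⟩, ⟨_, k3⟩, 0, rfl, (Option.some.inj k2).symm, by
              simp [wordRel]⟩)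
          · have := a.2; omega
          · omega
        · rcases k1 with ⟨k3, _⟩ | ⟨a', b', R, k3, k4, k5, k6, k7⟩ | ⟨_, k3, _⟩
          · have := b.2; omega
          · cases k7
            rw [i2] at k2 k5
            simp only [movePos] at k2
            split_ifs at k2
            rw [scan_letter] at k5
            refine Or.inr (Or.inl ⟨a, b', i + 1, k4, (Option.some.inj k2).symm, ?_⟩)
            rw [List.take_add_one, k5, wordRel_append]
            have : a' = b := Fin.ext (k3.symm.trans i1)
            exact ⟨b, i3, b', this ▸ k6, rfl⟩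
          · rw [scan_right, i2] at k3
            rw [List.take_of_length_le (by omega)] at i3
            exact Or.inr (Or.inr ⟨a, b, i3⟩)
        · exact Or.inr (Or.inr ih)
    have h3 : c.1.val = h + 1 := h2
    rcases key c h1 with ⟨k, _⟩ | ⟨_, b, _, k, _⟩ | k
    · omega
    · have := b.2; omega
    · exact k
  · rintro ⟨a, b, hab⟩
    have key : ∀ (v u : List (Fin h → Fin h → Bool)) (a : Fin h), w = u ++ v → wordRel v a b →
        ∃ c : Fin N × ℕ, Relation.ReflTransGen ((liveAut h N hN).Step w)
          (⟨a.val, by have := a.2; omega⟩, u.length + 1) c ∧ c.1 ∈ (liveAut h N hN).accept := by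
      intro v
      induction v with
      | nil =>
        intro u a hw _
        refine ⟨(⟨h + 1, by omega⟩, u.length + 1), .single ⟨HeadMove.stay, ?_, rfl⟩, rfl⟩
        exact Or.inr (Or.inr ⟨a.2, (scan_right w).2 (by simp [hw]), rfl, rfl⟩)
      | cons R v ih =>
        rintro u a hw ⟨a', h1, h2⟩
        obtain ⟨c, k1, k2⟩ := ih (u ++ [R]) a' (by simp [hw]) h2
        refine ⟨c, .head ⟨HeadMove.moveRight, ?_, ?_⟩ k1, k2⟩
        · exact Or.inr (Or.inl ⟨a, a', R, rfl, rfl, scan_letter.2 (by simp [hw]), h1, rfl⟩)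
        · simp [movePos, hw]
    obtain ⟨c, k1, k2⟩ := key w [] a rfl hab
    refine ⟨c, .head ⟨HeadMove.moveRight, ?_, ?_⟩ k1, k2⟩
    · exact Or.inl ⟨rfl, (scan_left w).2 rfl, a.2, rfl⟩
    · simp [movePos]

end Crest.Agent.H1Two
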