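import Crest.Agent.H1Two.Star

set_option autoImplicit false

namespace Crest.Agent.H1Two

variable {Q : Type*}

def Zig (x : TR Q) : Bool × Q → Bool × Q → Prop :=
  Relation.ReflTransGen fun π ρ => x π ρ ∧ ρ.1 ≠ π.1

/-- zigzag with the caps of `x`, then go through `y` -/
def T (x y : TR Q) (π e : Bool × Q) : Prop :=
  ∃ ρ, Zig x π ρ ∧ y ρ e ∧ ρ.1 = π.1 ∧ e.1 = π.1

def Caps (x y : TR Q) : Prop := ∀ a e, x a e → e.1 ≠ a.1 → y a e

def Abs (x y : TR Q) : Prop := x * y = y ∧ y * x = y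

theorem Caps.refl (x : TR Q) : Caps x x := fun _ _ h _ => h
theorem Caps.trans {x y z : TR Q} (h : Caps x y) (h' : Caps y z) : Caps x z :=
  fun a e h1 h2 => h' a e (h a e h1 h2) h2

theorem Abs.star {x y : TR Q} (h : Abs x y) (d : Bool) : star (two d x y) = y :=
  star_two_eq h.1 h.2
theorem Abs.star' {x y : TR Q} (h : Abs x y) (d : Bool) : H1Two.star (two d y x) = y :=
  star_two_eq h.2 h.1

theorem Abs.caps {x y : TR Q} (h : Abs x y) : Caps x y := fun a e h1 h2 => by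
  rw [← h.star a.1]; exact star_capB h1 rfl h2

theorem Zig.mono {x y : TR Q} (h : Caps x y) {π ρ : Bool × Q} (hz : Zig x π ρ) : Zig y π ρ := by
  induction hz with
  | refl => exact .refl
  | tail _ hab ih => exact .tail ih ⟨h _ _ hab.1 hab.2, hab.2⟩

theorem zig_out {x A B : TR Q} {d : Bool} (hA : Caps x A) (hB : Caps x B) {π ρ e : Bool × Q}
    (hz : Zig x π ρ) (ho : Out (two d A B) ρ e) : Out (two d A B) π e := by
  induction hz using Relation.ReflTransGen.head_induction_on with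
  | refl => exact ho
  | @head a b hab _ ih =>
    refine .bounce ?_ hab.2 ih
    unfold two; split_ifs
    · exact hB _ _ hab.1 hab.2
    · exact hA _ _ hab.1 hab.2

theorem out_zig {x : TR Q} {d : Bool} {π e : Bool × Q} (ho : Out (two d x x) π e) :
    ∃ ρ, Zig x π ρ ∧ x ρ e ∧ e.1 = ρ.1 := by
  rw [two_self] at ho
  induction ho with
  | exit h1 h2 => exact ⟨_, .refl, h1, h2⟩
  | bounce h1 h2 _ ih =>
    obtain ⟨σ, h3, h4⟩ := ih
    exact ⟨σ, .head ⟨h1, h2⟩ h3, h4⟩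

theorem out_last {A B : TR Q} {d : Bool} {π e : Bool × Q} (ho : Out (two d A B) π e)
    (he : e.1 = d) : ∃ ρ, B ρ e ∧ ρ.1 = d ∧ ∀ e', B ρ e' → e'.1 = d → Out (two d A B) π e' := by
  refine ho.ind (motive := fun π =>
    ∃ ρ, B ρ e ∧ ρ.1 = d ∧ ∀ e', B ρ e' → e'.1 = d → Out (two d A B) π e') ?_ ?_ ?_ ?_
  · intro π a b _; exact ⟨π, a, b, fun e' h1 h2 => .exitF h1 b h2⟩
  · intro π _ _ c; exact absurd he c
  · rintro π ρ a b c _ ⟨σ, h1, h2, h3⟩
    exact ⟨σ, h1, h2, fun e' h4 h5 => .bounceF a b c (h3 e' h4 h5)⟩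
  · rintro π ρ a b c _ ⟨σ, h1, h2, h3⟩
    exact ⟨σ, h1, h2, fun e' h4 h5 => .bounceB a b c (h3 e' h4 h5)⟩

theorem T.dir {x y : TR Q} {π e : Bool × Q} (h : T x y π e) : e.1 = π.1 := by
  obtain ⟨_, _, _, _, h⟩ := h; exact h

theorem T.out {x A B : TR Q} {d : Bool} (hA : Caps x A) (hB : Caps x B) {π e : Bool × Q}
    (h : T x B π e) (hd : π.1 = d) : Out (two d A B) π e := by
  obtain ⟨ρ, h1, h2, h3, h4⟩ := h
  exact zig_out hA hB h1 (.exitF h2 (h3.trans hd) (h4.trans hd))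

theorem T.of_out {x : TR Q} {d : Bool} {π e : Bool × Q} (ho : Out (two d x x) π e)
    (h : e.1 = π.1) : T x x π e := by
  obtain ⟨ρ, h1, h2, h3⟩ := out_zig ho
  exact ⟨ρ, h1, h2, h3.symm.trans h, h⟩

theorem T.mono {x x' y y' : TR Q} (hx : Caps x x') (hy : y ≤ y') {π e : Bool × Q}
    (h : T x y π e) : T x' y' π e := by
  obtain ⟨ρ, h1, h2, h3⟩ := h
  exact ⟨ρ, h1.mono hx, hy _ _ h2, h3⟩

theorem thr {x A B : TR Q} (hA : Caps x A) (hB : Caps x B) {a π e : Bool × Q} (h1 : A a π)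
    (h2 : π.1 = a.1) (h : T x B π e) : star (two a.1 A B) a e :=
  star_thrB h1 rfl h2 (h.out hA hB h2)

theorem T.comp {x A B : TR Q} (hA : Caps x A) (hB : Caps x B) {a b c : Bool × Q}
    (h1 : T x A a b) (h2 : T x B b c) : T x (star (two a.1 A B)) a c := by
  obtain ⟨ρ, h3, h4, h5, h6⟩ := h1
  refine ⟨ρ, h3, ?_, h5, h2.dir.trans h6⟩
  rw [← h5]
  exact thr hA hB h4 (h6.trans h5.symm) h2

theorem T.fix_mul {x A B : TR Q} (hA : Caps x A) (hB : Caps x B) {f : Bool × Q}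
    (h1 : T x A f f) (h2 : T x B f f) : T x (A * B) f f := by
  cases hf : f.1
  · have := h2.comp hB hA h1
    rwa [hf, ← mul_def'] at this
  · have := h1.comp hA hB h2
    rwa [hf, ← mul_def] at this

section idem
variable {x y : TR Q}

theorem T.xy (hx : Abs x x) (h : Abs x y) {a b c : Bool × Q} (h1 : T x x a b) (h2 : T x y b c) :
    T x y a c := by
  have := h1.comp (Caps.refl x) h.caps h2
  rwa [h.star] at this

theorem T.yx (hx : Abs x x) (h : Abs x y) {a b c : Bool × Q} (h1 : T x y a b) (h2 : T x x b c) :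
    T x y a c := by
  have := h1.comp h.caps (Caps.refl x) h2
  rwa [h.star'] at this

theorem T.trans (hx : Abs x x) {a b c : Bool × Q} (h1 : T x x a b) (h2 : T x x b c) :
    T x x a c := T.xy hx hx h1 h2

theorem T.up (h : Abs x y) {a b : Bool × Q} (h1 : T x y a b) : T y y a b := h1.mono h.caps le_rfl

theorem thr_yx (h : Abs x y) {a π e : Bool × Q} (h1 : y a π) (h2 : π.1 = a.1)
    (h3 : T x x π e) : y a e := by
  have := thr h.caps (Caps.refl x) h1 h2 h3
  rwa [h.star'] at this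

theorem thr_xy (h : Abs x y) {a π e : Bool × Q} (h1 : x a π) (h2 : π.1 = a.1)
    (h3 : T x y π e) : y a e := by
  have := thr (Caps.refl x) h.caps h1 h2 h3
  rwa [h.star] at this

theorem T.yy_xx (h : Abs x y) {a b c : Bool × Q} (h1 : T y y a b) (h2 : T x x b c) :
    T y y a c := by
  obtain ⟨ρ, h3, h4, h5, h6⟩ := h1
  exact ⟨ρ, h3, thr_yx h h4 (h6.trans h5.symm) h2, h5, h2.dir.trans h6⟩

theorem T.xx_yy (h : Abs x y) {a b c : Bool × Q} (h1 : T x x a b) (h2 : T y y b c) :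
    T y y a c := by
  obtain ⟨ρ, h3, h4, h5, h6⟩ := h1
  have h7 : Out (two a.1 y y) b c := h2.out (Caps.refl y) (Caps.refl y) h6
  have h8 : Out (two a.1 (star (two a.1 y x)) y) b c := by rw [h.star']; exact h7
  have h9 := shift h4 h5 h6 h8
  rw [h.star] at h9
  exact T.of_out (zig_out h.caps h.caps h3 h9) (h2.dir.trans h6)

theorem T.zig {a b c : Bool × Q} (h1 : Zig y a b) (hd : b.1 = a.1) (h2 : T y y b c) :
    T y y a c := by
  obtain ⟨ρ, h3, h4, h5, h6⟩ := h2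
  exact ⟨ρ, h1.trans h3, h4, h5.trans hd, h6.trans hd⟩

theorem exists_refl [Finite Q] (hx : Abs x x) {a e : Bool × Q} (h : x a e) (hd : e.1 = a.1) :
    ∃ r, x a r ∧ r.1 = a.1 ∧ T x x r r ∧ T x x r e := by
  have split : ∀ a e : Bool × Q, x a e → e.1 = a.1 → ∃ π, x a π ∧ π.1 = a.1 ∧ T x x π e := by
    intro a e h hd
    rw [← hx.star a.1] at h
    rcases star_elimB h rfl with ⟨_, h2⟩ | ⟨ρ, h1, h2, h3⟩
    · exact absurd hd h2
    · exact ⟨ρ, h1, h2, T.of_out h3 (hd.trans h2.symm)⟩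
  by_contra hcon
  push Not at hcon
  let Z := {π : Bool × Q // x a π ∧ π.1 = a.1 ∧ T x x π e}
  let r : Z → Z → Prop := fun p q => T x x q.1 p.1
  have : IsTrans Z r := ⟨fun p q s h1 h2 => T.trans hx h2 h1⟩
  have : Std.Irrefl r := ⟨fun p h1 => hcon p.1 p.2.1 p.2.2.1 h1 p.2.2.2⟩
  have hwf : WellFounded r := Finite.wellFounded_of_trans_of_irrefl r
  obtain ⟨π, h1, h2, h3⟩ := split a e h hd
  obtain ⟨m, -, hm⟩ := hwf.has_min Set.univ ⟨⟨π, h1, h2, h3⟩, trivial⟩
  obtain ⟨m, m1, m2, ρ, m3, m4, m5, m6⟩ := m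
  obtain ⟨π', k1, k2, k3⟩ := split ρ e m4 (m6.trans m5.symm)
  have k4 : T x x m π' := ⟨ρ, m3, k1, m5, k2.trans m5⟩
  exact hm ⟨π', thr_xy hx m1 m2 k4, k4.dir.trans m2, k3⟩ trivial k4

/-- last deep bounce -/
theorem deep [Finite Q] (hx : Abs x x) (h : Abs x y) {d : Bool} {π e : Bool × Q}
    (ho : Out (two d y y) π e) (he : e.1 = d) :
    Out (two d x y) π e ∨ ∃ r, T x x r r ∧ r.1 = d ∧ Zig y π r ∧ T x y r e := by
  refine ho.ind (motive := fun π =>
    Out (two d x y) π e ∨ ∃ r, T x x r r ∧ r.1 = d ∧ Zig y π r ∧ T x y r e) ?_ ?_ ?_ ?_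
  · intro π a b c; exact Or.inl (.exitF a b c)
  · intro π _ _ c; exact absurd he c
  · rintro π ρ a b c _ (ih | ⟨r, h1, h2, h3, h4⟩)
    · exact Or.inl (.bounceF a b c ih)
    · exact Or.inr ⟨r, h1, h2, .head ⟨a, by rwa [b]⟩ h3, h4⟩
  · rintro π ρ a b c _ (ih | ⟨r, h1, h2, h3, h4⟩)
    · have a' := a
      rw [← h.star' d] at a'
      rcases star_elimF a' b with ⟨k1, _⟩ | ⟨j, k1, k2, k3⟩
      · exact Or.inl (.bounceB k1 b c ih)
      · obtain ⟨σ, k4, k5, k6⟩ := out_last k3 c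
        obtain ⟨r, r1, r2, r3, σ', r4, r5, r6, r7⟩ := exists_refl hx k4 (c.trans k5.symm)
        have hrd : r.1 = d := r2.trans k5
        refine Or.inr ⟨r, r3, hrd, .single ⟨?_, by rw [hrd]; exact Ne.symm b⟩,
          σ', r4, ?_, r6, he.trans hrd.symm⟩
        · rw [← h.star' d]; exact star_thrF k1 b k2 (k6 r r1 hrd)
        · rw [← h.star d]; exact star_thrB r5 (r6.trans hrd) c ih
    · exact Or.inr ⟨r, h1, h2, .head ⟨a, by rw [c]; exact Ne.symm b⟩ h3, h4⟩

/-- the class of a port -/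
def cls (x : TR Q) (r : Bool × Q) : Set (Bool × Q) := {s | T x x r s ∧ T x x s r}

theorem cls_eq (hx : Abs x x) {r s : Bool × Q} (h1 : T x x r s) (h2 : T x x s r) :
    cls x r = cls x s := by
  ext t
  exact ⟨fun ht => ⟨h2.trans hx ht.1, ht.2.trans hx h1⟩, fun ht => ⟨h1.trans hx ht.1, ht.2.trans hx h2⟩⟩

theorem mem_of_cls_eq {r s : Bool × Q} (hs : T x x s s) (h : cls x r = cls x s) :
    T x x r s ∧ T x x s r := by
  have : s ∈ cls x s := ⟨hs, hs⟩
  rwa [← h] at this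

variable [Fintype Q]

open Classical in
/-- the classes of `x` that do not survive in `y` -/
noncomputable def Dset (x y : TR Q) : Finset (Set (Bool × Q)) :=
  (Finset.univ.filter fun r => T x x r r ∧ ¬ T x y r r).image (cls x)

open Classical in
/-- the classes of `x` that miss `F` -/
noncomputable def free (F : Set (Bool × Q)) (x : TR Q) : Finset (Set (Bool × Q)) :=
  (Finset.univ.filter fun r => T x x r r ∧ ∀ f ∈ F, f ∉ cls x r).image (cls x)

theorem mem_Dset {C : Set (Bool × Q)} :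
    C ∈ Dset x y ↔ ∃ r, T x x r r ∧ ¬ T x y r r ∧ cls x r = C := by
  simp [Dset, and_assoc]

theorem mem_free {F C : Set (Bool × Q)} :
    C ∈ free F x ↔ ∃ r, T x x r r ∧ (∀ f ∈ F, f ∉ cls x r) ∧ cls x r = C := by
  simp only [free, Finset.mem_image, Finset.mem_filter, Finset.mem_univ, true_and, and_assoc]

theorem cov_Dset (hx : Abs x x) (h : Abs x y) : Cov (Dset x y).card x y := by
  classical
  let f : Set (Bool × Q) → Set (Bool × Q) × Set (Bool × Q) := fun C =>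
    ({a | ∃ r ∈ C, x a r ∧ r.1 = a.1}, {e | ∀ r ∈ C, T x x r e})
  refine ⟨(Dset x y).image f, Finset.card_image_le, ?_, ?_⟩
  · intro r hr a ha b hb
    obtain ⟨C, _, rfl⟩ := Finset.mem_image.1 hr
    obtain ⟨s, hs, h1, h2⟩ := ha
    exact thr_xy hx h1 h2 (hb s hs)
  · intro a e hae
    by_cases hd : e.1 = a.1
    · obtain ⟨r, r1, r2, r3, r4⟩ := exists_refl hx hae hd
      by_cases hr : T x y r r
      · exact Or.inl (thr_yx h (thr_xy h r1 r2 hr) r2 r4)
      · refine Or.inr ⟨f (cls x r), Finset.mem_image_of_mem _ (mem_Dset.2 ⟨r, r3, hr, rfl⟩),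
          ⟨r, ⟨r3, r3⟩, r1, r2⟩, fun s hs => hs.2.trans hx r4⟩
    · exact Or.inl (h.caps _ _ hae hd)

theorem free_le {W : TR Q} {N : ℕ} (hx : Abs x x) (h : Cov N x W) :
    (free {f | T x x f f ∧ T x W f f} x).card ≤ 2 * N := by
  classical
  obtain ⟨S, h1, h2, h3⟩ := h
  have key : ∀ C ∈ free {f | T x x f f ∧ T x W f f} x, ∃ r, ∃ s ∈ S, cls x r = C ∧ r ∈ s.2 ∧
      ∃ ρ ∈ s.1, Zig x r ρ ∧ ρ.1 = r.1 := by
    intro C hC
    obtain ⟨r, r1, r2, r3⟩ := mem_free.1 hC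
    obtain ⟨ρ, k1, k2, k3, k4⟩ := id r1
    rcases h3 _ _ k2 with k5 | ⟨s, hs, k5, k6⟩
    · exact absurd ⟨r1, r1⟩ (r2 r ⟨r1, ρ, k1, k5, k3, k4⟩)
    · exact ⟨r, s, hs, r3, k6, ρ, k5, k1, k3⟩
  rcases isEmpty_or_nonempty (Bool × Q) with hE | hE
  · have : free {f | T x x f f ∧ T x W f f} x = ∅ :=
      Finset.eq_empty_of_forall_notMem fun C hC => by
        obtain ⟨r, -⟩ := key C hC; exact hE.elim r
    rw [this]; simp
  choose! r s hs hc hr hρ using key
  have := Finset.card_le_card_of_injOn (s := free {f | T x x f f ∧ T x W f f} x)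
    (t := (Finset.univ : Finset Bool) ×ˢ S) (fun C => ((r C).1, s C))
    (fun C hC => by simpa using hs C hC) (by
      intro C hC C' hC' heq
      simp only [Prod.mk.injEq] at heq
      obtain ⟨ρ, k1, k2, k3⟩ := hρ C hC
      obtain ⟨ρ', k1', k2', k3'⟩ := hρ C' hC'
      rw [← hc C hC, ← hc C' hC']
      refine cls_eq hx ⟨ρ, k2, h2 _ (hs C hC) _ k1 _ (heq.2 ▸ hr C' hC'), k3, heq.1.symm⟩
        ⟨ρ', k2', h2 _ (hs C' hC') _ k1' _ (heq.2 ▸ hr C hC), k3', heq.1⟩)
  simp only [Finset.card_product, Finset.card_univ, Fintype.card_bool] at this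
  omega

/-- the drop lemma -/
theorem drop (hx : Abs x x) (hy : Abs y y) (h : Abs x y) {F : Set (Bool × Q)}
    (hF : ∀ f ∈ F, T x y f f) :
    2 * (free F y).card + (Dset x y).card ≤ 2 * (free F x).card := by
  classical
  have hDF : Dset x y ⊆ free F x := by
    intro C hC
    obtain ⟨r, r1, r2, r3⟩ := mem_Dset.1 hC
    exact mem_free.2 ⟨r, r1, fun f hf hfr =>
      r2 (T.yx hx h (T.xy hx h hfr.1 (hF f hf)) hfr.2), r3⟩
  let good : Bool × Q → Bool × Q → Prop := fun r' r =>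
    T x x r r ∧ T y y r r' ∧ ∀ e, T y y r e → T y y r' e
  let S : Set (Bool × Q) → Finset (Set (Bool × Q)) := fun C' =>
    (free F x).filter fun C => ∃ r' r, T y y r' r' ∧ cls y r' = C' ∧ cls x r = C ∧ good r' r
  let wt : Set (Bool × Q) → ℕ := fun C => if C ∈ Dset x y then 1 else 2
  have hdisj : ((free F y : Finset _) : Set (Set (Bool × Q))).PairwiseDisjoint S := by
    intro C1 _ C2 _ hne
    rw [Function.onFun, Finset.disjoint_left]
    intro C h1 h2
    obtain ⟨-, r1', r1, a1, a2, a3, a4, a5, a6⟩ := Finset.mem_filter.1 h1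
    obtain ⟨-, r2', r2, b1, b2, b3, b4, b5, b6⟩ := Finset.mem_filter.1 h2
    obtain ⟨c1, c2⟩ := mem_of_cls_eq b4 (a3.trans b3.symm)
    apply hne
    rw [← a2, ← b2]
    exact cls_eq hy (a6 _ (T.xx_yy h c1 b5)) (b6 _ (T.xx_yy h c2 a5))
  have hS : ∀ C' ∈ free F y, 2 ≤ ∑ C ∈ S C', wt C := by
    intro C' hC'
    obtain ⟨r', r1, r2, r3⟩ := mem_free.1 hC'
    have hmem : ∀ r, good r' r → cls x r ∈ S C' := by
      intro r hr
      refine Finset.mem_filter.2 ⟨mem_free.2 ⟨r, hr.1, fun f hf hfr => r2 f hf ⟨?_, ?_⟩, rfl⟩,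
        r', r, r1, r3, rfl, hr⟩
      · exact hr.2.2 _ (T.xx_yy h hfr.1 (T.up h (hF f hf)))
      · exact T.xx_yy h hfr.2 hr.2.1
    -- an `x`-reflexive port in the class
    obtain ⟨r, hr, hr'⟩ : ∃ r, good r' r ∧ T y y r' r := by
      obtain ⟨ρ, k1, k2, k3, -⟩ := id r1
      have k2' := k2
      rw [← h.star' r'.1] at k2'
      rcases star_elimB k2' k3 with ⟨_, k5⟩ | ⟨π, k4, k5, k6⟩
      · exact absurd rfl k5
      obtain ⟨σ, k7, k8, k9⟩ := out_last k6 rfl
      obtain ⟨r, s1, s2, s3, s4⟩ := exists_refl hx k7 k8.symm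
      have hrd : r.1 = r'.1 := s2.trans k8
      have s5 : T y y r' r := ⟨ρ, k1, by
        rw [← h.star' r'.1]; exact star_thrB k4 k3 k5 (k9 r s1 hrd), k3, hrd⟩
      exact ⟨r, ⟨s3, T.xx_yy h s4 r1, fun e he => s5.trans hy he⟩, s5⟩
    by_cases hD : T x y r r
    · have h1 : wt (cls x r) = 2 := by
        refine if_neg fun hmem => ?_
        obtain ⟨s, s1, s2, s3⟩ := mem_Dset.1 hmem
        obtain ⟨c1, c2⟩ := mem_of_cls_eq hr.1 s3
        exact s2 (T.yx hx h (T.xy hx h c1 hD) c2)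
      rw [← h1]
      exact Finset.single_le_sum (f := wt) (fun _ _ => Nat.zero_le _) (hmem r hr)
    · have hrr : T y y r r := hr.2.1.trans hy hr'
      rcases deep hx h (hrr.out (Caps.refl y) (Caps.refl y) rfl) rfl with k | ⟨r2, k1, k2, k3, k4⟩
      · exfalso
        obtain ⟨σ, s1, s2, s3, -⟩ := id hr.1
        exact hD ⟨σ, s1, by rw [← h.star r.1]; exact star_thrB s2 s3 rfl k, s3, rfl⟩
      · have hg : good r' r2 := ⟨k1, (T.up h k4).trans hy hr.2.1,
          fun e he => hr.2.2 e (T.zig k3 k2 he)⟩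
        have hne : cls x r ≠ cls x r2 := fun heq =>
          hD (T.xy hx h (mem_of_cls_eq k1 heq).1 k4)
        have h1 : ({cls x r, cls x r2} : Finset _) ⊆ S C' := by
          intro C hC
          rcases Finset.mem_insert.1 hC with rfl | hC
          · exact hmem r hr
          · rw [Finset.mem_singleton.1 hC]; exact hmem r2 hg
        refine le_trans ?_ (Finset.sum_le_sum_of_subset h1)
        rw [Finset.sum_pair hne]
        have : ∀ C, 1 ≤ wt C := fun C => by simp only [wt]; split_ifs <;> omega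
        exact Nat.add_le_add (this _) (this _)
  have h1 : 2 * (free F y).card ≤ ∑ C ∈ free F x, wt C := by
    calc 2 * (free F y).card = ∑ C' ∈ free F y, 2 := by simp [mul_comm]
      _ ≤ ∑ C' ∈ free F y, ∑ C ∈ S C', wt C := Finset.sum_le_sum hS
      _ = ∑ C ∈ (free F y).biUnion S, wt C := (Finset.sum_biUnion hdisj).symm
      _ ≤ _ := Finset.sum_le_sum_of_subset
          (Finset.biUnion_subset.2 fun C' _ => Finset.filter_subset _ _)
  have h2 : ∑ C ∈ free F x, wt C + (Dset x y).card = 2 * (free F x).card := by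
    have : (Dset x y).card = ∑ C ∈ free F x, if C ∈ Dset x y then 1 else 0 := by
      rw [Finset.sum_ite_mem, Finset.inter_eq_right.2 hDF]; simp
    rw [this, ← Finset.sum_add_distrib, mul_comm, ← smul_eq_mul, ← Finset.sum_const]
    refine Finset.sum_congr rfl fun C _ => ?_
    simp only [wt]; split_ifs <;> rfl
  omega

end idem

end Crest.Agent.H1Two
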