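import Crest.Agent.H1Two.Classes

set_option autoImplicit false

namespace Crest.Agent.H1Two

/-- the monoid of binary relations -/
def BR (ι : Type*) := ι → ι → Prop

variable {ι Q : Type*}

instance : Monoid (BR ι) where
  mul R S := fun a c => ∃ b, R a b ∧ S b c
  one := fun a b => a = b
  mul_assoc R S U := by
    funext a d; apply propext
    exact ⟨fun ⟨c, ⟨b, h1, h2⟩, h3⟩ => ⟨b, h1, c, h2, h3⟩,
      fun ⟨b, h1, c, h2, h3⟩ => ⟨c, ⟨b, h1, h2⟩, h3⟩⟩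
  one_mul R := by
    funext a c; apply propext
    exact ⟨fun ⟨b, h1, h2⟩ => h1 ▸ h2, fun h => ⟨a, rfl, h⟩⟩
  mul_one R := by
    funext a c; apply propext
    exact ⟨fun ⟨b, h1, h2⟩ => h2 ▸ h1, fun h => ⟨c, h, rfl⟩⟩

theorem BR.mul_apply (R S : BR ι) (a c : ι) : (R * S) a c ↔ ∃ b, R a b ∧ S b c := Iff.rfl
theorem BR.one_apply (a b : ι) : (1 : BR ι) a b ↔ a = b := Iff.rfl
theorem BR.ext {R S : BR ι} (h : ∀ a b, R a b ↔ S a b) : R = S := by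
  funext a b; exact propext (h a b)

instance [Finite ι] : Finite (BR ι) := inferInstanceAs (Finite (ι → ι → Prop))
instance [Finite Q] : Finite (TR Q) := inferInstanceAs (Finite (Bool × Q → Bool × Q → Prop))

/-- partial identity plus some extra pairs -/
def rl (S : Finset ι) (E : Set (ι × ι)) : BR ι := fun i j => (i ∈ S ∧ i = j) ∨ (i, j) ∈ E

theorem rl_apply (S : Finset ι) (E : Set (ι × ι)) (i j : ι) :
    rl S E i j ↔ (i ∈ S ∧ i = j) ∨ (i, j) ∈ E := Iff.rfl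

theorem rl_left (S : Finset ι) (R : BR ι) (i j : ι) : (rl S ∅ * R) i j ↔ i ∈ S ∧ R i j := by
  simp only [BR.mul_apply, rl_apply, Set.mem_empty_iff_false, or_false]
  exact ⟨fun ⟨b, ⟨h1, h2⟩, h3⟩ => ⟨h1, h2 ▸ h3⟩, fun ⟨h1, h2⟩ => ⟨i, ⟨h1, rfl⟩, h2⟩⟩

theorem rl_right (S : Finset ι) (R : BR ι) (i j : ι) : (R * rl S ∅) i j ↔ R i j ∧ j ∈ S := by
  simp only [BR.mul_apply, rl_apply, Set.mem_empty_iff_false, or_false]
  exact ⟨fun ⟨b, h1, h2, h3⟩ => ⟨h3 ▸ h1, h3 ▸ h2⟩, fun ⟨h1, h2⟩ => ⟨j, h1, h2, rfl⟩⟩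

theorem rl_mul {S A B : Finset ι} (hA : A ⊆ S) (hB : B ⊆ S) (hAB : Disjoint A B)
    {E E' : Set (ι × ι)} (hE : ∀ p ∈ E, p.1 ∈ A ∧ p.2 ∈ B) (hE' : ∀ p ∈ E', p.1 ∈ A ∧ p.2 ∈ B) :
    rl S E * rl S E' = rl S (E ∪ E') := by
  refine BR.ext fun i j => ?_
  simp only [BR.mul_apply, rl_apply, Set.mem_union]
  constructor
  · rintro ⟨b, ⟨h1, rfl⟩ | h1, ⟨h2, rfl⟩ | h2⟩
    · exact Or.inl ⟨h1, rfl⟩
    · exact Or.inr (Or.inr h2)
    · exact Or.inr (Or.inl h1)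
    · exact absurd (hE _ h1).2 (Finset.disjoint_left.1 hAB (hE' _ h2).1)
  · rintro (⟨h1, rfl⟩ | h1 | h1)
    · exact ⟨i, Or.inl ⟨h1, rfl⟩, Or.inl ⟨h1, rfl⟩⟩
    · exact ⟨j, Or.inr h1, Or.inl ⟨hB (hE _ h1).2, rfl⟩⟩
    · exact ⟨i, Or.inl ⟨hA (hE' _ h1).1, rfl⟩, Or.inr h1⟩

theorem exists_idem_pow {M : Type*} [Monoid M] [Finite M] (a : M) :
    ∃ k, a ^ (k + 1) * a ^ (k + 1) = a ^ (k + 1) := by
  obtain ⟨i, j, hij, h⟩ : ∃ i j : ℕ, i < j ∧ a ^ i = a ^ j := by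
    obtain ⟨i, j, hne, h⟩ := Finite.exists_ne_map_eq_of_infinite (fun n : ℕ => a ^ n)
    rcases lt_or_gt_of_ne hne with h1 | h1
    · exact ⟨i, j, h1, h⟩
    · exact ⟨j, i, h1, h.symm⟩
  obtain ⟨p, rfl⟩ : ∃ p, j = i + (p + 1) := ⟨j - i - 1, by omega⟩
  have key : ∀ m, a ^ (i + m * (p + 1)) = a ^ i := by
    intro m
    induction m with
    | zero => simp
    | succ m ih =>
      rw [show i + (m + 1) * (p + 1) = (i + m * (p + 1)) + (p + 1) by ring, pow_add, ih,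
        ← pow_add, ← h]
  obtain ⟨k, hk⟩ : ∃ k, (i + 1) * (p + 1) = k + 1 := ⟨(i + 1) * (p + 1) - 1, by
    have : 0 < (i + 1) * (p + 1) := by positivity
    omega⟩
  refine ⟨k, ?_⟩
  have hik : i ≤ k + 1 := by nlinarith
  obtain ⟨r, hr⟩ : ∃ r, k + 1 = i + r := ⟨k + 1 - i, by omega⟩
  rw [← pow_add]
  calc a ^ (k + 1 + (k + 1)) = a ^ (i + (i + 1) * (p + 1)) * a ^ r := by
        rw [← pow_add, hk]; congr 1; omega
    _ = a ^ (k + 1) := by rw [key, ← pow_add, ← hr]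

theorem pow_succ_of_idem {M : Type*} [Monoid M] {a : M} (h : a * a = a) (k : ℕ) :
    a ^ (k + 1) = a := IsIdempotentElem.pow_succ_eq k h

theorem sandwich_pow_left {M : Type*} [Monoid M] {x : M} (hx : x * x = x) (g : M) (k : ℕ) :
    x * (x * g * x) ^ (k + 1) = (x * g * x) ^ (k + 1) := by
  rw [pow_succ', ← mul_assoc, ← mul_assoc, ← mul_assoc, hx]

theorem sandwich_pow_right {M : Type*} [Monoid M] {x : M} (hx : x * x = x) (g : M) (k : ℕ) :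
    (x * g * x) ^ (k + 1) * x = (x * g * x) ^ (k + 1) := by
  rw [pow_succ, mul_assoc, mul_assoc (x * g), hx]

theorem abs_of {x y : TR Q × BR ι} (h1 : x * y = y) (h2 : y * x = y) : Abs x.1 y.1 :=
  ⟨congrArg Prod.fst h1, congrArg Prod.fst h2⟩

/-- the level statement -/
def Lev (𝓜 : Submonoid (TR Q × BR ι)) (S : Finset ι) (N : ℕ) : Prop :=
  ∃ x ∈ 𝓜, x * x = x ∧ x.2 = rl S ∅ ∧ ∀ a ∈ S, ∀ b ∈ S, a ≠ b →
    ∃ y ∈ 𝓜, x * y = y ∧ y * x = y ∧ y.2 = rl S {(a, b)} ∧ Cov N x.1 y.1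

variable [Fintype Q] [Fintype ι] [DecidableEq ι]

theorem chain (𝓜 : Submonoid (TR Q × BR ι)) (hM : ∀ R : BR ι, ∃ m ∈ 𝓜, m.2 = R)
    {S : Finset ι} {N : ℕ} (h : Lev 𝓜 S N) {c : ι} (hc : c ∈ S) {A B : Finset ι}
    (hA : A ⊆ S.erase c) (hB : B ⊆ S.erase c) (hAB : Disjoint A B) (hA16 : A.card = 16)
    (hB16 : B.card = 16) :
    ∃ Y ∈ 𝓜, ∃ Y' ∈ 𝓜, ∃ (E : Set (ι × ι)), ∃ a ∈ A, ∃ b ∈ B, (a, b) ∉ E ∧
      (∀ p ∈ E, p.1 ∈ A ∧ p.2 ∈ B) ∧ Y.2 = rl (S.erase c) E ∧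
      Y'.2 = rl (S.erase c) (insert (a, b) E) ∧ Cov (N / 2) Y.1 Y'.1 := by
  classical
  obtain ⟨x, hxM, hxx, hx2, hy⟩ := h
  have hQ : ∀ a ∈ A, ∃ y ∈ 𝓜, y.2 = rl S {(a, c)} ∧ Cov N x.1 y.1 := fun a ha => by
    obtain ⟨y, h1, _, _, h2⟩ := hy a (Finset.mem_of_mem_erase (hA ha)) c hc
      (Finset.ne_of_mem_erase (hA ha))
    exact ⟨y, h1, h2⟩
  have hP : ∀ b ∈ B, ∃ y ∈ 𝓜, y.2 = rl S {(c, b)} ∧ Cov N x.1 y.1 := fun b hb => by
    obtain ⟨y, h1, _, _, h2⟩ := hy c hc b (Finset.mem_of_mem_erase (hB hb))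
      (Finset.ne_of_mem_erase (hB hb)).symm
    exact ⟨y, h1, h2⟩
  choose! q hqM hq2 hqc using hQ
  choose! p hpM hp2 hpc using hP
  obtain ⟨WQ, hWQ1, hWQ2, hWQ3⟩ := Cov.family A (fun a => (q a).1) hqc
  obtain ⟨WP, hWP1, hWP2, hWP3⟩ := Cov.family B (fun b => (p b).1) hpc
  obtain ⟨k, hkM, hk2⟩ := hM (rl (S.erase c) ∅)
  obtain ⟨n, hn⟩ := exists_idem_pow (x * k * x)
  set κ := (x * k * x) ^ (n + 1) with hκ
  have hκM : κ ∈ 𝓜 := pow_mem (mul_mem (mul_mem hxM hkM) hxM) _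
  have hκ2 : κ.2 = rl (S.erase c) ∅ := by
    have h1 : (x * k * x).2 = rl (S.erase c) ∅ := by
      refine BR.ext fun i j => ?_
      simp only [Prod.snd_mul, hx2, hk2, rl_right, rl_apply, Set.mem_empty_iff_false, or_false,
        Finset.mem_erase]
      constructor
      · rintro ⟨⟨⟨h1, rfl⟩, h2⟩, _⟩; exact ⟨h2, rfl⟩
      · rintro ⟨h1, rfl⟩; exact ⟨⟨⟨h1.2, rfl⟩, h1⟩, h1.2⟩
    rw [hκ, Prod.pow_snd, h1, pow_succ_of_idem]
    rw [rl_mul hA hB hAB (by simp) (by simp)]; simp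
  have hκx : κ * x = κ := sandwich_pow_right hxx k n
  have hxκ : x * κ = κ := sandwich_pow_left hxx k n
  have hκκ : Abs κ.1 κ.1 := abs_of hn hn
  let G : ι → ι → TR Q × BR ι := fun a b => κ * q a * p b * κ
  have hG2 : ∀ a ∈ A, ∀ b ∈ B, (G a b).2 = rl (S.erase c) {(a, b)} := by
    intro a ha b hb
    refine BR.ext fun i j => ?_
    have ha' := Finset.mem_erase.1 (hA ha)
    have hb' := Finset.mem_erase.1 (hB hb)
    simp only [G, Prod.snd_mul, hκ2, hq2 a ha, hp2 b hb, mul_assoc]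
    rw [rl_left, ← mul_assoc, rl_right]
    simp only [BR.mul_apply, rl_apply, Set.mem_singleton_iff, Prod.mk.injEq, Finset.mem_erase]
    constructor
    · rintro ⟨h1, ⟨u, ⟨h2, rfl⟩ | ⟨rfl, rfl⟩, ⟨h3, rfl⟩ | ⟨h3, rfl⟩⟩, h4⟩
      · exact Or.inl ⟨h1, rfl⟩
      · exact absurd h3 h1.1
      · exact absurd rfl h4.1
      · exact Or.inr ⟨rfl, rfl⟩
    · rintro (⟨h1, rfl⟩ | ⟨rfl, rfl⟩)
      · exact ⟨h1, ⟨i, Or.inl ⟨h1.2, rfl⟩, Or.inl ⟨h1.2, rfl⟩⟩, h1⟩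
      · exact ⟨ha', ⟨c, Or.inr ⟨rfl, rfl⟩, Or.inr ⟨rfl, rfl⟩⟩, hb'⟩
  set W0 : TR Q := κ.1 * WQ * WP * κ.1 with hW0
  have hcov : Cov (32 * N) κ.1 W0 := by
    have h1 : Cov (16 * N) (κ.1 * x.1 * (x.1 * κ.1)) (κ.1 * WQ * (x.1 * κ.1)) :=
      ((hA16 ▸ hWQ3).mul_left κ.1).mul_right _
    have h2 : Cov (16 * N) (κ.1 * WQ * x.1 * κ.1) W0 :=
      ((hB16 ▸ hWP3).mul_left (κ.1 * WQ)).mul_right _
    rw [mul_assoc] at h2
    have h3 := h1.trans (mul_mono (mul_mono le_rfl hWQ1) le_rfl) h2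
    have h4 : κ.1 * x.1 * (x.1 * κ.1) = κ.1 := by
      rw [← Prod.fst_mul, ← Prod.fst_mul, ← Prod.fst_mul, hκx, hxκ, hn]
    rw [h4] at h3
    exact h3.mono (by omega) le_rfl
  set F : Set (Bool × Q) := {f | T κ.1 κ.1 f f ∧ T κ.1 W0 f f} with hF
  have hfree : (free F κ.1).card ≤ 2 * (32 * N) := free_le hκκ hcov
  let K : TR Q × BR ι → Prop := fun z => κ * z = z ∧ z * κ = z ∧ ∀ f ∈ F, T κ.1 z.1 f f
  have hKmul : ∀ z z', K z → K z' → K (z * z') := by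
    rintro z z' ⟨h1, h2, h3⟩ ⟨h4, h5, h6⟩
    exact ⟨by rw [← mul_assoc, h1], by rw [mul_assoc, h5], fun f hf =>
      T.fix_mul (abs_of h1 h2).caps (abs_of h4 h5).caps (h3 f hf) (h6 f hf)⟩
  have hKpow : ∀ z n, K z → K (z ^ (n + 1)) := by
    intro z n hz
    induction n with
    | zero => simpa using hz
    | succ n ih => rw [pow_succ]; exact hKmul _ _ ih hz
  have hKG : ∀ a ∈ A, ∀ b ∈ B, K (G a b) := by
    intro a ha b hb
    refine ⟨by simp only [G, ← mul_assoc, hn], by simp only [G, mul_assoc, hn], fun f hf => ?_⟩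
    exact hf.2.mono (Caps.refl _)
      (mul_mono (mul_mono (mul_mono le_rfl (hWQ2 a ha)) (hWP2 b hb)) le_rfl)
  by_contra hcon
  push Not at hcon
  have main : ∀ E : Finset (ι × ι), E ⊆ A ×ˢ B → ∃ Y ∈ 𝓜, Y * Y = Y ∧ K Y ∧
      Y.2 = rl (S.erase c) E ∧
      2 * (free F Y.1).card + E.card * (N / 2 + 1) ≤ 2 * (free F κ.1).card := by
    intro E
    induction E using Finset.induction_on with
    | empty => intro _; exact ⟨κ, hκM, hn, ⟨hn, hn, fun f hf => hf.1⟩, by simpa using hκ2, by simp⟩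
    | insert e E he ih =>
      intro hE
      obtain ⟨a, b⟩ := e
      obtain ⟨ha, hb⟩ := Finset.mem_product.1 (hE (Finset.mem_insert_self _ _))
      have hE' : ∀ p ∈ (E : Set (ι × ι)), p.1 ∈ A ∧ p.2 ∈ B := fun p hp =>
        Finset.mem_product.1 (hE (Finset.mem_insert_of_mem hp))
      obtain ⟨Y, hYM, hYY, hYK, hY2, hYc⟩ := ih ((Finset.subset_insert _ _).trans hE)
      obtain ⟨m, hm⟩ := exists_idem_pow (Y * G a b * Y)
      set Y' := (Y * G a b * Y) ^ (m + 1) with hY'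
      have hY'M : Y' ∈ 𝓜 := pow_mem (mul_mem (mul_mem hYM
        (mul_mem (mul_mem (mul_mem hκM (hqM a ha)) (hpM b hb)) hκM)) hYM) _
      have hY'K : K Y' := hKpow _ _ (hKmul _ _ (hKmul _ _ hYK (hKG a ha b hb)) hYK)
      have hEi : ∀ p ∈ insert (a, b) (E : Set (ι × ι)), p.1 ∈ A ∧ p.2 ∈ B := by
        rintro p (rfl | hp)
        · exact ⟨ha, hb⟩
        · exact hE' p hp
      have hY'2 : Y'.2 = rl (S.erase c) (insert (a, b) (E : Set (ι × ι))) := by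
        have h1 : (Y * G a b * Y).2 = rl (S.erase c) (insert (a, b) (E : Set (ι × ι))) := by
          rw [Prod.snd_mul, Prod.snd_mul, hY2, hG2 a ha b hb,
            rl_mul hA hB hAB hE' (by rintro p rfl; exact ⟨ha, hb⟩), Set.union_singleton,
            rl_mul hA hB hAB hEi hE', Set.union_eq_left.2 (Set.subset_insert _ _)]
        rw [hY', Prod.pow_snd, h1, pow_succ_of_idem]
        rw [rl_mul hA hB hAB hEi hEi, Set.union_self]
      have hab : Abs Y.1 Y'.1 := abs_of (sandwich_pow_left hYY _ _) (sandwich_pow_right hYY _ _)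
      have hd := drop (abs_of hYY hYY) (abs_of hm hm) hab (F := F) fun f hf =>
        (hY'K.2.2 f hf).mono (abs_of hYK.1 hYK.2.1).caps le_rfl
      have hD : N / 2 + 1 ≤ (Dset Y.1 Y'.1).card := by
        by_contra hlt
        exact hcon Y hYM Y' hY'M E a ha b hb (by simpa using he) hE' hY2 hY'2
          ((cov_Dset (abs_of hYY hYY) hab).mono (by omega) le_rfl)
      refine ⟨Y', hY'M, hm, hY'K, by simpa using hY'2, ?_⟩
      rw [Finset.card_insert_of_notMem he, add_mul]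
      omega
  obtain ⟨Y, -, -, -, -, h1⟩ := main _ subset_rfl
  rw [Finset.card_product, hA16, hB16] at h1
  omega

omit [Fintype ι] in
theorem exists_perm {S : Finset ι} {a b a' b' : ι} (ha : a ∈ S) (hb : b ∈ S) (ha' : a' ∈ S)
    (hb' : b' ∈ S) (hab : a ≠ b) (hab' : a' ≠ b') :
    ∃ π : Equiv.Perm ι, π a = a' ∧ π b = b' ∧ ∀ i ∈ S, π i ∈ S := by
  have hs : ∀ u v i, u ∈ S → v ∈ S → i ∈ S → Equiv.swap u v i ∈ S := by
    intro u v i hu hv hi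
    rw [Equiv.swap_apply_def]; split_ifs <;> assumption
  have h1 : Equiv.swap a a' b ≠ a' := by
    intro h
    apply hab
    apply (Equiv.swap a a').injective
    rw [h, Equiv.swap_apply_left]
  refine ⟨(Equiv.swap a a').trans (Equiv.swap (Equiv.swap a a' b) b'), ?_, ?_, fun i hi => ?_⟩
  · simp only [Equiv.trans_apply, Equiv.swap_apply_left]
    exact Equiv.swap_apply_of_ne_of_ne h1.symm hab'
  · simp
  · exact hs _ _ _ (hs _ _ _ ha ha' hb) hb' (hs _ _ _ ha ha' hi)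

theorem generic (𝓜 : Submonoid (TR Q × BR ι)) (hM : ∀ R : BR ι, ∃ m ∈ 𝓜, m.2 = R)
    {S : Finset ι} {N : ℕ} {Y Y' : TR Q × BR ι} (hY : Y ∈ 𝓜) (hY' : Y' ∈ 𝓜) {a b : ι}
    (ha : a ∈ S) (hb : b ∈ S) (hab : a ≠ b) (h1 : rl S ∅ * Y.2 * rl S ∅ = rl S ∅)
    (h2 : rl S ∅ * Y'.2 * rl S ∅ = rl S {(a, b)}) (hc : Cov N Y.1 Y'.1) : Lev 𝓜 S N := by
  classical
  have hee : rl S ∅ * rl S ∅ = (rl S ∅ : BR ι) := by
    rw [rl_mul (A := ∅) (B := ∅) (by simp) (by simp) (by simp) (by simp) (by simp)]; simp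
  let 𝒢 : Set (TR Q × BR ι) := {e | e * e = e ∧ ∃ U ∈ 𝓜, ∃ V ∈ 𝓜, U.2 = rl S ∅ ∧ V.2 = rl S ∅ ∧
    e = U * Y * V}
  have hne : 𝒢.Nonempty := by
    obtain ⟨g, hg, hg2⟩ := hM (rl S ∅)
    obtain ⟨k, hk⟩ := exists_idem_pow (g * Y * g)
    refine ⟨_, hk, g, hg, g * (g * Y * g) ^ k, mul_mem hg (pow_mem (mul_mem (mul_mem hg hY) hg) _),
      hg2, ?_, by rw [pow_succ']; simp only [mul_assoc]⟩
    rw [Prod.snd_mul, Prod.pow_snd, Prod.snd_mul, Prod.snd_mul, hg2, h1, ← pow_succ',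
      pow_succ_of_idem hee]
  obtain ⟨e, ⟨he, U, hU, V, hV, hU2, hV2, heq⟩, hmin⟩ :=
    Set.exists_min_image 𝒢 (fun e => (Set.range (e * ·)).ncard) (Set.toFinite _) hne
  have heM : e ∈ 𝓜 := heq ▸ mul_mem (mul_mem hU hY) hV
  have he2 : e.2 = rl S ∅ := by rw [heq, Prod.snd_mul, Prod.snd_mul, hU2, hV2, h1]
  refine ⟨e, heM, he, he2, fun a' ha' b' hb' hab' => ?_⟩
  obtain ⟨π, hπa, hπb, hπ⟩ := exists_perm ha hb ha' hb' hab hab'
  obtain ⟨t, ht, ht2⟩ := hM (fun i j => i ∈ S ∧ j = π i)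
  obtain ⟨k, hk⟩ := exists_idem_pow (e * t * e)
  set γ := e * t * e with hγ
  have hγM : γ ∈ 𝓜 := mul_mem (mul_mem heM ht) heM
  have hγ2 : ∀ i j, γ.2 i j ↔ i ∈ S ∧ j = π i := by
    intro i j
    rw [hγ, Prod.snd_mul, Prod.snd_mul, he2, rl_right, rl_left, ht2]
    exact ⟨fun h => h.1.2, fun h => ⟨⟨h.1, h⟩, h.2 ▸ hπ i h.1⟩⟩
  have hpow : ∀ n i j, (γ ^ (n + 1)).2 i j ↔ i ∈ S ∧ j = (π ^ (n + 1)) i := by
    intro n
    induction n with
    | zero => simpa using hγ2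
    | succ n ih =>
      intro i j
      rw [pow_succ', Prod.snd_mul, BR.mul_apply, pow_succ π (n + 1)]
      simp only [hγ2, ih, Equiv.Perm.mul_apply]
      exact ⟨fun ⟨u, ⟨h1, h2⟩, _, h4⟩ => ⟨h1, h2 ▸ h4⟩, fun ⟨h1, h2⟩ => ⟨_, ⟨h1, rfl⟩, hπ i h1, h2⟩⟩
  have hf2 : (γ ^ (k + 1)).2 = rl S ∅ := by
    refine BR.ext fun i j => ?_
    rw [hpow, rl_apply]
    simp only [Set.mem_empty_iff_false, or_false]
    have : i ∈ S → (π ^ (k + 1)) i = i := fun hi => by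
      have h3 : (γ ^ (k + 1)).2 i ((π ^ (k + 1)) i) := (hpow _ _ _).2 ⟨hi, rfl⟩
      rw [← hk, Prod.snd_mul, BR.mul_apply] at h3
      obtain ⟨u, h4, h5⟩ := h3
      rw [hpow] at h4 h5
      rw [← h4.2]
      exact ((π ^ (k + 1)).injective h5.2).symm
    exact ⟨fun h => ⟨h.1, by rw [h.2, this h.1]⟩, fun h => ⟨h.1, by rw [this h.1, h.2]⟩⟩
  have hfe : γ ^ (k + 1) = e := by
    have hfG : γ ^ (k + 1) ∈ 𝒢 := by
      refine ⟨hk, U, hU, V * t * e * γ ^ k,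
        mul_mem (mul_mem (mul_mem hV ht) heM) (pow_mem hγM _), hU2, ?_, ?_⟩
      · rw [← hf2, pow_succ', hγ]
        simp only [Prod.snd_mul, hV2, he2]
      · rw [pow_succ']
        conv_lhs => rw [hγ]; congr; congr; congr; rw [heq]
        simp only [mul_assoc, hγ]
    have hsub : Set.range (γ ^ (k + 1) * ·) ⊆ Set.range (e * ·) := by
      rintro _ ⟨m, rfl⟩
      exact ⟨γ ^ (k + 1) * m, by
        change e * (γ ^ (k + 1) * m) = _
        rw [← mul_assoc, sandwich_pow_left he]⟩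
    have heq2 := Set.eq_of_subset_of_ncard_le hsub (hmin _ hfG) (Set.toFinite _)
    obtain ⟨m, hm⟩ : e ∈ Set.range (γ ^ (k + 1) * ·) := heq2 ▸ ⟨1, mul_one e⟩
    have h3 : γ ^ (k + 1) * e = e := by
      rw [← hm]; change _ * (_ * m) = _ * m; rw [← mul_assoc, hk]
    rw [← h3, sandwich_pow_right he]
  have heγ : e * γ = γ := by rw [hγ, ← mul_assoc, ← mul_assoc, he]
  have hγe : γ * e = γ := by rw [hγ, mul_assoc, he]
  have h4 : e * γ ^ k * γ = e := by rw [mul_assoc, ← pow_succ, hfe, he]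
  refine ⟨e * γ ^ k * U * Y' * (V * γ), mul_mem (mul_mem (mul_mem (mul_mem heM (pow_mem hγM _)) hU)
    hY') (mul_mem hV hγM), by simp only [← mul_assoc, he], by simp only [mul_assoc, hγe], ?_, ?_⟩
  · have h5 : (e * γ ^ k * U * Y' * (V * γ)).2 = (e * γ ^ k).2 * rl S {(a, b)} * γ.2 := by
      rw [← h2]
      simp only [Prod.snd_mul, hU2, hV2, mul_assoc]
    have h6 : ∀ i j, (∃ u, (e * γ ^ k).2 i u ∧ u ∈ S ∧ j = π u) ↔ i ∈ S ∧ i = j := by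
      intro i j
      have := congrFun (congrFun (congrArg Prod.snd h4) i) j
      rw [Prod.snd_mul, BR.mul_apply, he2, rl_apply] at this
      simpa [hγ2] using this
    rw [h5]
    refine BR.ext fun i j => ?_
    simp only [BR.mul_apply _ γ.2, BR.mul_apply _ (rl S _), rl_apply, hγ2, Set.mem_singleton_iff,
      Prod.mk.injEq]
    constructor
    · rintro ⟨v, ⟨u, k1, ⟨k2, rfl⟩ | ⟨rfl, rfl⟩⟩, k3, k4⟩
      · exact Or.inl ((h6 i j).1 ⟨u, k1, k3, k4⟩)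
      · exact Or.inr ⟨((h6 i _).1 ⟨u, k1, ha, rfl⟩).2.trans hπa, k4.trans hπb⟩
    · rintro (⟨k1, rfl⟩ | ⟨rfl, rfl⟩)
      · obtain ⟨u, k2, k3, k4⟩ := (h6 i i).2 ⟨k1, rfl⟩
        exact ⟨u, ⟨u, k2, Or.inl ⟨k3, rfl⟩⟩, k3, k4⟩
      · obtain ⟨u, k2, k3, k4⟩ := (h6 i i).2 ⟨ha', rfl⟩
        have : u = a := π.injective (k4.symm.trans hπa.symm)
        exact ⟨b, ⟨u, k2, Or.inr ⟨this, rfl⟩⟩, hb, hπb.symm⟩
  · have h5 : e = e * γ ^ k * U * Y * (V * γ) := by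
      calc e = e * γ ^ k * (e * γ) := by rw [heγ, h4]
        _ = e * γ ^ k * (U * Y * V * γ) := by rw [← heq]
        _ = _ := by simp only [mul_assoc]
    have h6 := (hc.mul_left (e * γ ^ k * U).1).mul_right (V * γ).1
    conv => congr; rfl; rw [h5]
    exact h6

theorem halving (𝓜 : Submonoid (TR Q × BR ι)) (hM : ∀ R : BR ι, ∃ m ∈ 𝓜, m.2 = R)
    {S : Finset ι} {N : ℕ} (h : Lev 𝓜 S N) (hS : 33 ≤ S.card) :
    ∃ S' : Finset ι, S'.card = S.card - 31 ∧ Lev 𝓜 S' (N / 2) := by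
  obtain ⟨c, hc⟩ : S.Nonempty := Finset.card_pos.1 (by omega)
  have h1 : (S.erase c).card = S.card - 1 := Finset.card_erase_of_mem hc
  obtain ⟨A, hA, hA16⟩ := Finset.exists_subset_card_eq (s := S.erase c) (n := 16) (by omega)
  obtain ⟨B, hB, hB16⟩ := Finset.exists_subset_card_eq (s := S.erase c \ A) (n := 16)
    (by rw [Finset.card_sdiff_of_subset hA]; omega)
  have hB' : B ⊆ S.erase c := hB.trans Finset.sdiff_subset
  have hAB : Disjoint A B := Finset.disjoint_of_subset_right hB Finset.disjoint_sdiff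
  obtain ⟨Y, hY, Y', hY', E, a, ha, b, hb, hab, hE, hY2, hY'2, hcov⟩ :=
    chain 𝓜 hM h hc hA hB' hAB hA16 hB16
  have hne : a ≠ b := by rintro rfl; exact Finset.disjoint_left.1 hAB ha hb
  have haB : a ∉ B := Finset.disjoint_left.1 hAB ha
  have hbA : b ∉ A := Finset.disjoint_right.1 hAB hb
  set S' := S.erase c \ (A.erase a ∪ B.erase b) with hS'
  have haS : a ∈ S' := by
    rw [hS', Finset.mem_sdiff]; exact ⟨hA ha, by simp [haB]⟩
  have hbS : b ∈ S' := by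
    rw [hS', Finset.mem_sdiff]; exact ⟨hB' hb, by simp [hbA]⟩
  have hsub : S' ⊆ S.erase c := Finset.sdiff_subset
  have hEab : ∀ i j, i ∈ S' → j ∈ S' → i ∈ A → j ∈ B → i = a ∧ j = b := by
    intro i j hi hj hiA hjB
    rw [hS', Finset.mem_sdiff] at hi hj
    constructor
    · by_contra h; exact hi.2 (by simp [h, hiA])
    · by_contra h; exact hj.2 (by simp [h, hjB])
  refine ⟨S', ?_, generic 𝓜 hM hY hY' haS hbS hne ?_ ?_ hcov⟩
  · rw [hS', Finset.card_sdiff_of_subset (Finset.union_subset ((Finset.erase_subset _ _).trans hA)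
      ((Finset.erase_subset _ _).trans hB')), Finset.card_union_of_disjoint
      (Finset.disjoint_of_subset_left (Finset.erase_subset _ _)
        (Finset.disjoint_of_subset_right (Finset.erase_subset _ _) hAB)),
      Finset.card_erase_of_mem ha, Finset.card_erase_of_mem hb]
    omega
  · refine BR.ext fun i j => ?_
    rw [rl_right, rl_left, hY2, rl_apply, rl_apply]
    constructor
    · rintro ⟨⟨k1, k2 | k2⟩, k3⟩
      · exact Or.inl ⟨k1, k2.2⟩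
      · obtain ⟨rfl, rfl⟩ := hEab i j k1 k3 (hE _ k2).1 (hE _ k2).2
        exact absurd k2 hab
    · rintro (⟨k1, rfl⟩ | k1)
      · exact ⟨⟨k1, Or.inl ⟨hsub k1, rfl⟩⟩, k1⟩
      · exact k1.elim
  · refine BR.ext fun i j => ?_
    rw [rl_right, rl_left, hY'2, rl_apply, rl_apply]
    constructor
    · rintro ⟨⟨k1, k2 | k2 | k2⟩, k3⟩
      · exact Or.inl ⟨k1, k2.2⟩
      · exact Or.inr k2
      · obtain ⟨rfl, rfl⟩ := hEab i j k1 k3 (hE _ k2).1 (hE _ k2).2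
        exact Or.inr rfl
    · rintro (⟨k1, rfl⟩ | k1)
      · exact ⟨⟨k1, Or.inl ⟨hsub k1, rfl⟩⟩, k1⟩
      · obtain ⟨rfl, rfl⟩ := Prod.mk.inj k1
        exact ⟨⟨haS, Or.inr (Or.inl rfl)⟩, hbS⟩

theorem abstract_bound (𝓜 : Submonoid (TR Q × BR ι)) (hM : ∀ R : BR ι, ∃ m ∈ 𝓜, m.2 = R)
    (hmono : ∀ x ∈ 𝓜, ∀ y ∈ 𝓜, x * y = y → y * x = y → x.1 ≤ y.1 → ∀ a b, y.2 a b → x.2 a b)
    (h2 : 2 ≤ Fintype.card ι) :
    2 ^ ((Fintype.card ι - 2) / 31) ≤ 2 * Fintype.card Q := by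
  have key : ∀ j, 2 + 31 * j ≤ Fintype.card ι → ∃ S : Finset ι,
      S.card = Fintype.card ι - 31 * j ∧ Lev 𝓜 S (2 * Fintype.card Q / 2 ^ j) := by
    intro j
    induction j with
    | zero =>
      intro _
      refine ⟨Finset.univ, by simp, 1, one_mem _, mul_one _, ?_, fun a _ b _ _ => ?_⟩
      · refine BR.ext fun i j => ?_
        simp [rl_apply, BR.one_apply]
      · obtain ⟨y, hy, hy2⟩ := hM (rl Finset.univ {(a, b)})
        exact ⟨y, hy, one_mul _, mul_one _, hy2, by simpa using Cov.top y.1⟩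
    | succ j ih =>
      intro hj
      obtain ⟨S, h1, h3⟩ := ih (by omega)
      obtain ⟨S', h4, h5⟩ := halving 𝓜 hM h3 (by omega)
      exact ⟨S', by omega, by rwa [Nat.div_div_eq_div_mul, ← pow_succ] at h5⟩
  obtain ⟨S, h1, x, hx, -, hx2, h3⟩ := key ((Fintype.card ι - 2) / 31) (by omega)
  by_contra hlt
  rw [Nat.div_eq_of_lt (not_le.1 hlt)] at h3
  obtain ⟨a, ha, b, hb, hab⟩ := Finset.one_lt_card.1 (show 1 < S.card by omega)
  obtain ⟨y, hy, k1, k2, k3, k4⟩ := h3 a ha b hb hab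
  have := hmono x hx y hy k1 k2 k4.zero a b (by rw [k3]; exact Or.inr rfl)
  rw [hx2] at this
  rcases this with ⟨_, h⟩ | h
  · exact hab h
  · exact h

end Crest.Agent.H1Two
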