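import Mathlib

set_option autoImplicit false

namespace Crest.Agent.H1Two

/-- two-way behaviours: relations between in-ports and out-ports; `true` = heading right -/
def TR (Q : Type*) := Bool × Q → Bool × Q → Prop

variable {Q : Type*}

instance : PartialOrder (TR Q) := inferInstanceAs (PartialOrder (Bool × Q → Bool × Q → Prop))

theorem TR.le_def {x y : TR Q} : x ≤ y ↔ ∀ a e, x a e → y a e := Iff.rfl

/-- `two d A B`: `B` is the piece entered by ports of direction `d`, `A` the other one -/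
def two (d : Bool) (A B : TR Q) : Bool → TR Q := fun b => if b = d then B else A

theorem two_of_eq {d b : Bool} (A B : TR Q) (h : b = d) : two d A B b = B := by simp [two, h]
theorem two_of_ne {d b : Bool} (A B : TR Q) (h : b ≠ d) : two d A B b = A := by simp [two, h]
theorem two_not_of_eq {d b : Bool} (A B : TR Q) (h : b = d) : two d A B (!b) = A := by
  subst h; simp [two]
theorem two_not_of_ne {d b : Bool} (A B : TR Q) (h : b ≠ d) : two d A B (!b) = B := by
  cases b <;> cases d <;> simp_all [two]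
theorem two_false (A B : TR Q) : two false A B = two true B A := by
  funext b; cases b <;> simp [two]
theorem two_self (d : Bool) (A : TR Q) : two d A A = fun _ => A := by
  funext b; simp [two]

theorem eq_of_ne_ne {a b d : Bool} (h1 : a ≠ b) (h2 : b ≠ d) : a = d := by
  cases a <;> cases b <;> cases d <;> simp_all

/-- starting at the middle boundary, zigzag and leave -/
inductive Out (P : Bool → TR Q) : Bool × Q → Bool × Q → Prop
  | exit {π e : Bool × Q} : P π.1 π e → e.1 = π.1 → Out P π e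
  | bounce {π ρ e : Bool × Q} : P π.1 π ρ → ρ.1 ≠ π.1 → Out P ρ e → Out P π e

def star (P : Bool → TR Q) : TR Q := fun π e =>
  (P (!π.1) π e ∧ e.1 ≠ π.1) ∨ ∃ ρ, P (!π.1) π ρ ∧ ρ.1 = π.1 ∧ Out P ρ e

theorem Out.mono {P P' : Bool → TR Q} (h : ∀ b, P b ≤ P' b) {π e : Bool × Q} (ho : Out P π e) :
    Out P' π e := by
  induction ho with
  | exit h1 h2 => exact .exit (h _ _ _ h1) h2
  | bounce h1 h2 _ ih => exact .bounce (h _ _ _ h1) h2 ih

theorem star_mono {P P' : Bool → TR Q} (h : ∀ b, P b ≤ P' b) : star P ≤ star P' := by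
  rintro π e (⟨h1, h2⟩ | ⟨ρ, h1, h2, h3⟩)
  · exact Or.inl ⟨h _ _ _ h1, h2⟩
  · exact Or.inr ⟨ρ, h _ _ _ h1, h2, h3.mono h⟩

theorem two_mono {d : Bool} {A B A' B' : TR Q} (h1 : A ≤ A') (h2 : B ≤ B') (b : Bool) :
    two d A B b ≤ two d A' B' b := by
  unfold two; split_ifs <;> assumption

section intro
variable {d : Bool} {A B : TR Q} {π ρ e : Bool × Q}

theorem Out.exitF (h : B π e) (h1 : π.1 = d) (h2 : e.1 = d) : Out (two d A B) π e :=
  .exit (by rwa [two_of_eq _ _ h1]) (h2.trans h1.symm)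
theorem Out.exitB (h : A π e) (h1 : π.1 ≠ d) (h2 : e.1 ≠ d) : Out (two d A B) π e :=
  .exit (by rwa [two_of_ne _ _ h1]) (by cases d <;> simp_all)
theorem Out.bounceF (h : B π ρ) (h1 : π.1 = d) (h2 : ρ.1 ≠ d) (h3 : Out (two d A B) ρ e) :
    Out (two d A B) π e :=
  .bounce (by rwa [two_of_eq _ _ h1]) (by rwa [h1]) h3
theorem Out.bounceB (h : A π ρ) (h1 : π.1 ≠ d) (h2 : ρ.1 = d) (h3 : Out (two d A B) ρ e) :
    Out (two d A B) π e :=
  .bounce (by rwa [two_of_ne _ _ h1]) (by rw [h2]; exact Ne.symm h1) h3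

theorem star_capB (h : A π e) (h1 : π.1 = d) (h2 : e.1 ≠ d) : star (two d A B) π e :=
  Or.inl ⟨by rwa [two_not_of_eq _ _ h1], by rwa [h1]⟩
theorem star_capF (h : B π e) (h1 : π.1 ≠ d) (h2 : e.1 = d) : star (two d A B) π e :=
  Or.inl ⟨by rwa [two_not_of_ne _ _ h1], by rw [h2]; exact Ne.symm h1⟩
theorem star_thrB (h : A π ρ) (h1 : π.1 = d) (h2 : ρ.1 = d) (h3 : Out (two d A B) ρ e) :
    star (two d A B) π e :=
  Or.inr ⟨ρ, by rwa [two_not_of_eq _ _ h1], h2.trans h1.symm, h3⟩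
theorem star_thrF (h : B π ρ) (h1 : π.1 ≠ d) (h2 : ρ.1 ≠ d) (h3 : Out (two d A B) ρ e) :
    star (two d A B) π e :=
  Or.inr ⟨ρ, by rwa [two_not_of_ne _ _ h1], by cases d <;> simp_all, h3⟩

theorem star_elimB (h : star (two d A B) π e) (h1 : π.1 = d) :
    (A π e ∧ e.1 ≠ d) ∨ ∃ ρ, A π ρ ∧ ρ.1 = d ∧ Out (two d A B) ρ e := by
  rcases h with ⟨h2, h3⟩ | ⟨ρ, h2, h3, h4⟩
  · rw [two_not_of_eq _ _ h1] at h2; exact Or.inl ⟨h2, by rwa [← h1]⟩
  · rw [two_not_of_eq _ _ h1] at h2; exact Or.inr ⟨ρ, h2, h3.trans h1, h4⟩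
theorem star_elimF (h : star (two d A B) π e) (h1 : π.1 ≠ d) :
    (B π e ∧ e.1 = d) ∨ ∃ ρ, B π ρ ∧ ρ.1 ≠ d ∧ Out (two d A B) ρ e := by
  rcases h with ⟨h2, h3⟩ | ⟨ρ, h2, h3, h4⟩
  · rw [two_not_of_ne _ _ h1] at h2; exact Or.inl ⟨h2, eq_of_ne_ne h3 h1⟩
  · rw [two_not_of_ne _ _ h1] at h2; exact Or.inr ⟨ρ, h2, by rwa [h3], h4⟩

/-- induction principle adapted to `two` -/
theorem Out.ind {motive : Bool × Q → Prop} (ho : Out (two d A B) π e)
    (eF : ∀ π, B π e → π.1 = d → e.1 = d → motive π)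
    (eB : ∀ π, A π e → π.1 ≠ d → e.1 ≠ d → motive π)
    (bF : ∀ π ρ, B π ρ → π.1 = d → ρ.1 ≠ d → Out (two d A B) ρ e → motive ρ → motive π)
    (bB : ∀ π ρ, A π ρ → π.1 ≠ d → ρ.1 = d → Out (two d A B) ρ e → motive ρ → motive π) :
    motive π := by
  induction ho with
  | @exit π e h1 h2 =>
    by_cases h : π.1 = d
    · rw [two_of_eq _ _ h] at h1; exact eF _ h1 h (h2.trans h)
    · rw [two_of_ne _ _ h] at h1; exact eB _ h1 h (by rwa [h2])
  | @bounce π ρ e h1 h2 h3 ih =>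
    by_cases h : π.1 = d
    · rw [two_of_eq _ _ h] at h1
      exact bF _ _ h1 h (by rwa [← h]) h3 (ih eF eB bF bB)
    · rw [two_of_ne _ _ h] at h1
      exact bB _ _ h1 h (eq_of_ne_ne h2 h) h3 (ih eF eB bF bB)

end intro

section shift
variable {d : Bool} {U X V : TR Q} {e : Bool × Q}

/-- auxiliary description of the second boundary -/
def Sec (d : Bool) (U X V : TR Q) (e π : Bool × Q) : Prop :=
  (Out (two d X V) π e ∧ e.1 = d) ∨
    ∃ j, j.1 ≠ d ∧ Out (two d X V) π j ∧ Out (two d U (star (two d X V))) j e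

theorem sec_claim1 {σ p : Bool × Q} (h : X σ p) (h1 : σ.1 = d) (h2 : p.1 = d)
    (h3 : Sec d U X V e p) : Out (two d U (star (two d X V))) σ e := by
  rcases h3 with ⟨h3, h4⟩ | ⟨j, h3, h4, h5⟩
  · exact .exitF (star_thrB h h1 h2 h3) h1 h4
  · exact .bounceF (star_thrB h h1 h2 h4) h1 h3 h5

theorem sec_claim3 {j ρ : Bool × Q} (h : Out (two d U X) j ρ)
    (h1 : ρ.1 = d → Sec d U X V e ρ) (h2 : ρ.1 ≠ d → ρ = e) :
    Out (two d U (star (two d X V))) j e := by
  refine h.ind (motive := fun j => Out (two d U (star (two d X V))) j e) ?_ ?_ ?_ ?_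
  · intro π a b c; exact sec_claim1 a b c (h1 c)
  · intro π a b c; rw [← h2 c]; exact .exitB a b c
  · intro π ρ a b c _ ih; exact .bounceF (star_capB a b c) b c ih
  · intro π ρ a b c _ ih; exact .bounceB a b c ih

theorem sec_claim2 {π : Bool × Q} (h : Out (two d (star (two d U X)) V) π e) :
    Sec d U X V e π := by
  refine h.ind (motive := fun π => Sec d U X V e π) ?_ ?_ ?_ ?_
  · intro π a b c; exact Or.inl ⟨.exitF a b c, c⟩
  · intro π a b c
    rcases star_elimF a b with ⟨_, h2⟩ | ⟨j, h1, h2, h3⟩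
    · exact absurd h2 c
    · exact Or.inr ⟨j, h2, .exitB h1 b h2, sec_claim3 h3 (fun h => absurd h c) (fun _ => rfl)⟩
  · rintro π ρ a b c _ (⟨h1, h2⟩ | ⟨j, h1, h2, h3⟩)
    · exact Or.inl ⟨.bounceF a b c h1, h2⟩
    · exact Or.inr ⟨j, h1, .bounceF a b c h2, h3⟩
  · intro π ρ a b c _ ih
    rcases star_elimF a b with ⟨h1, _⟩ | ⟨j, h1, h2, h3⟩
    · rcases ih with ⟨h3, h4⟩ | ⟨j, h3, h4, h5⟩
      · exact Or.inl ⟨.bounceB h1 b c h3, h4⟩
      · exact Or.inr ⟨j, h3, .bounceB h1 b c h4, h5⟩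
    · exact Or.inr ⟨j, h2, .exitB h1 b h2, sec_claim3 h3 (fun _ => ih) (fun h => absurd c h)⟩

/-- the shift lemma -/
theorem shift {σ p : Bool × Q} (h : X σ p) (h1 : σ.1 = d) (h2 : p.1 = d)
    (h3 : Out (two d (star (two d U X)) V) p e) : Out (two d U (star (two d X V))) σ e :=
  sec_claim1 h h1 h2 (sec_claim2 h3)

theorem star_assoc_le :
    star (two d (star (two d U X)) V) ≤ star (two d U (star (two d X V))) := by
  intro π e h
  by_cases hd : π.1 = d
  · rcases star_elimB h hd with ⟨h1, h2⟩ | ⟨ρ, h1, h2, h3⟩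
    · rcases star_elimB h1 hd with ⟨h3, _⟩ | ⟨ρ, h3, h4, h5⟩
      · exact star_capB h3 hd h2
      · exact star_thrB h3 hd h4 (sec_claim3 h5 (fun h => absurd h h2) (fun _ => rfl))
    · rcases star_elimB h1 hd with ⟨_, h5⟩ | ⟨ρ', h4, h5, h6⟩
      · exact absurd h2 h5
      · exact star_thrB h4 hd h5 (sec_claim3 h6 (fun _ => sec_claim2 h3) (fun h => absurd h2 h))
  · rcases star_elimF h hd with ⟨h1, h2⟩ | ⟨ρ, h1, h2, h3⟩
    · exact star_capF (star_capF h1 hd h2) hd h2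
    · rcases sec_claim2 h3 with ⟨h4, h5⟩ | ⟨j, h4, h5, h6⟩
      · exact star_capF (star_thrF h1 hd h2 h4) hd h5
      · exact star_thrF (star_thrF h1 hd h2 h5) hd h4 h6

end shift

/-- the identity behaviour -/
def TR.id : TR Q := fun π e => π = e

theorem star_id (d : Bool) (V : TR Q) : star (two d TR.id V) = V := by
  have key : ∀ π e, Out (two d TR.id V) π e → (π.1 = d → V π e) ∧ (π.1 ≠ d → π = e) := by
    intro π e h
    refine h.ind (motive := fun π => (π.1 = d → V π e) ∧ (π.1 ≠ d → π = e)) ?_ ?_ ?_ ?_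
    · intro π a b c; exact ⟨fun _ => a, fun h => absurd b h⟩
    · intro π a b c; exact ⟨fun h => absurd h b, fun _ => a⟩
    · intro π ρ a b c _ ih; exact ⟨fun _ => ih.2 c ▸ a, fun h => absurd b h⟩
    · intro π ρ a b c _ ih; cases a; exact absurd c b
  apply le_antisymm
  · intro π e h
    by_cases hd : π.1 = d
    · rcases star_elimB h hd with ⟨h1, h2⟩ | ⟨ρ, h1, h2, h3⟩
      · cases h1; exact absurd hd h2
      · cases h1; exact (key _ _ h3).1 hd
    · rcases star_elimF h hd with ⟨h1, h2⟩ | ⟨ρ, h1, h2, h3⟩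
      · exact h1
      · exact (key _ _ h3).2 h2 ▸ h1
  · intro π e h
    by_cases hd : π.1 = d
    · refine star_thrB (ρ := π) rfl hd hd ?_
      by_cases he : e.1 = d
      · exact .exitF h hd he
      · exact .bounceF h hd he (.exitB rfl he he)
    · by_cases he : e.1 = d
      · exact star_capF h hd he
      · exact star_thrF h hd he (.exitB rfl he he)

instance : Monoid (TR Q) where
  mul U V := star (two true U V)
  one := TR.id
  mul_assoc U X V := by
    apply le_antisymm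
    · exact star_assoc_le
    · have := star_assoc_le (d := false) (U := V) (X := X) (V := U)
      simp only [two_false] at this
      exact this
  one_mul V := star_id true V
  mul_one V := by
    have := star_id false V
    rw [two_false] at this
    exact this

theorem mul_def (U V : TR Q) : U * V = star (two true U V) := rfl
theorem mul_def' (U V : TR Q) : V * U = star (two false U V) := by rw [two_false]; rfl
theorem one_apply (π e : Bool × Q) : (1 : TR Q) π e ↔ π = e := Iff.rfl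

theorem star_two (d : Bool) (A B : TR Q) : star (two d A B) = if d then A * B else B * A := by
  cases d
  · simp [mul_def']
  · simp [mul_def]

theorem star_two_eq {d : Bool} {A B C : TR Q} (h1 : A * B = C) (h2 : B * A = C) :
    star (two d A B) = C := by
  rw [star_two]; split_ifs <;> assumption

theorem mul_mono {A B A' B' : TR Q} (h1 : A ≤ A') (h2 : B ≤ B') : A * B ≤ A' * B' :=
  star_mono (two_mono h1 h2)

/-! ### Rectangle covers -/

/-- `x` is covered by `w` and at most `N` rectangles contained in `x` -/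
def Cov (N : ℕ) (x w : TR Q) : Prop :=
  ∃ S : Finset (Set (Bool × Q) × Set (Bool × Q)), S.card ≤ N ∧
    (∀ r ∈ S, ∀ a ∈ r.1, ∀ b ∈ r.2, x a b) ∧
    ∀ a b, x a b → w a b ∨ ∃ r ∈ S, a ∈ r.1 ∧ b ∈ r.2

theorem Cov.mono {N N' : ℕ} {x w w' : TR Q} (h : Cov N x w) (hN : N ≤ N') (hw : w ≤ w') :
    Cov N' x w' := by
  obtain ⟨S, h1, h2, h3⟩ := h
  exact ⟨S, h1.trans hN, h2, fun a b hab => (h3 a b hab).imp_left (hw a b)⟩

theorem Cov.zero {x w : TR Q} (h : Cov 0 x w) : x ≤ w := by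
  obtain ⟨S, h1, -, h3⟩ := h
  rw [Nat.le_zero, Finset.card_eq_zero] at h1
  subst h1
  intro a b hab
  simpa using h3 a b hab

theorem Cov.trans {N N' : ℕ} {x w w' : TR Q} (h : Cov N x w) (hw : w ≤ x) (h' : Cov N' w w') :
    Cov (N + N') x w' := by
  classical
  obtain ⟨S, h1, h2, h3⟩ := h
  obtain ⟨S', h1', h2', h3'⟩ := h'
  refine ⟨S ∪ S', (Finset.card_union_le _ _).trans (by omega), ?_, ?_⟩
  · intro r hr a ha b hb
    rcases Finset.mem_union.1 hr with hr | hr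
    · exact h2 r hr a ha b hb
    · exact hw _ _ (h2' r hr a ha b hb)
  · intro a b hab
    rcases h3 a b hab with h4 | ⟨r, hr, h4⟩
    · rcases h3' a b h4 with h5 | ⟨r, hr, h5⟩
      · exact Or.inl h5
      · exact Or.inr ⟨r, Finset.mem_union_right _ hr, h5⟩
    · exact Or.inr ⟨r, Finset.mem_union_left _ hr, h4⟩

/-- a common sub-behaviour of a family -/
theorem Cov.family {ι : Type*} (s : Finset ι) {N : ℕ} {x : TR Q} (g : ι → TR Q)
    (h : ∀ i ∈ s, Cov N x (g i)) :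
    ∃ W : TR Q, W ≤ x ∧ (∀ i ∈ s, W ≤ g i) ∧ Cov (s.card * N) x W := by
  classical
  choose! S h1 h2 h3 using h
  refine ⟨fun a b => x a b ∧ ∀ i ∈ s, g i a b, fun a b h => h.1, fun i hi a b h => h.2 i hi,
    s.biUnion S, ?_, ?_, ?_⟩
  · exact Finset.card_biUnion_le_card_mul _ _ _ h1
  · intro r hr
    obtain ⟨i, hi, hr⟩ := Finset.mem_biUnion.1 hr
    exact h2 i hi r hr
  · intro a b hab
    by_cases hc : ∀ i ∈ s, g i a b
    · exact Or.inl ⟨hab, hc⟩
    · push Not at hc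
      obtain ⟨i, hi, hc⟩ := hc
      obtain ⟨r, hr, h4⟩ := (h3 i hi a b hab).resolve_left hc
      exact Or.inr ⟨r, Finset.mem_biUnion.2 ⟨i, hi, hr⟩, h4⟩

/-- the rank-one update lemma -/
theorem Cov.star {N : ℕ} {x w : TR Q} (h : Cov N x w) (d : Bool) (V : TR Q) :
    Cov N (star (two d x V)) (star (two d w V)) := by
  classical
  obtain ⟨S, h1, h2, h3⟩ := h
  let B' : Set (Bool × Q) → Set (Bool × Q) := fun B =>
    {e | ∃ b ∈ B, (b.1 ≠ d ∧ e = b) ∨ (b.1 = d ∧ Out (two d x V) b e)}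
  let f : Set (Bool × Q) × Set (Bool × Q) → Set (Bool × Q) × Set (Bool × Q) := fun r =>
    ({π | ∀ e ∈ B' r.2, H1Two.star (two d x V) π e}, B' r.2)
  have back : ∀ r ∈ S, ∀ ρ ∈ r.1, ρ.1 ≠ d → ∀ e ∈ B' r.2, Out (two d x V) ρ e := by
    rintro r hr ρ hρ hd e ⟨b, hb, ⟨h4, rfl⟩ | ⟨h4, h5⟩⟩
    · exact .exitB (h2 r hr ρ hρ _ hb) hd h4
    · exact .bounceB (h2 r hr ρ hρ _ hb) hd h4 h5
  have key : ∀ ρ e, Out (two d x V) ρ e → Out (two d w V) ρ e ∨
      ∃ r ∈ S, e ∈ B' r.2 ∧ ∀ e' ∈ B' r.2, Out (two d x V) ρ e' := by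
    intro ρ e h
    refine h.ind (motive := fun ρ => Out (two d w V) ρ e ∨
      ∃ r ∈ S, e ∈ B' r.2 ∧ ∀ e' ∈ B' r.2, Out (two d x V) ρ e') ?_ ?_ ?_ ?_
    · intro π a b c; exact Or.inl (.exitF a b c)
    · intro π a b c
      rcases h3 _ _ a with h4 | ⟨r, hr, h4, h5⟩
      · exact Or.inl (.exitB h4 b c)
      · exact Or.inr ⟨r, hr, ⟨e, h5, Or.inl ⟨c, rfl⟩⟩, back r hr π h4 b⟩
    · rintro π ρ a b c _ (ih | ⟨r, hr, h4, h5⟩)
      · exact Or.inl (.bounceF a b c ih)
      · exact Or.inr ⟨r, hr, h4, fun e' he' => .bounceF a b c (h5 e' he')⟩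
    · rintro π ρ a b c ho (ih | ⟨r, hr, h4, h5⟩)
      · rcases h3 _ _ a with h4 | ⟨r, hr, h4, h5⟩
        · exact Or.inl (.bounceB h4 b c ih)
        · exact Or.inr ⟨r, hr, ⟨ρ, h5, Or.inr ⟨c, ho⟩⟩, back r hr π h4 b⟩
      · exact Or.inr ⟨r, hr, h4, fun e' he' => .bounceB a b c (h5 e' he')⟩
  have front : ∀ r ∈ S, ∀ π ∈ r.1, π.1 = d → ∀ e ∈ B' r.2, H1Two.star (two d x V) π e := by
    rintro r hr π hπ hd e ⟨b, hb, ⟨h4, rfl⟩ | ⟨h4, h5⟩⟩
    · exact star_capB (h2 r hr π hπ _ hb) hd h4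
    · exact star_thrB (h2 r hr π hπ _ hb) hd h4 h5
  refine ⟨S.image f, Finset.card_image_le.trans h1, ?_, ?_⟩
  · intro r hr a ha b hb
    obtain ⟨r', _, rfl⟩ := Finset.mem_image.1 hr
    exact ha b hb
  · intro π e h
    by_cases hd : π.1 = d
    · rcases star_elimB h hd with ⟨h4, h5⟩ | ⟨ρ, h4, h5, h6⟩
      · rcases h3 _ _ h4 with h6 | ⟨r, hr, h6, h7⟩
        · exact Or.inl (star_capB h6 hd h5)
        · exact Or.inr ⟨f r, Finset.mem_image_of_mem _ hr, front r hr π h6 hd,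
            e, h7, Or.inl ⟨h5, rfl⟩⟩
      · rcases key _ _ h6 with h7 | ⟨r, hr, h7, h8⟩
        · rcases h3 _ _ h4 with h8 | ⟨r, hr, h8, h9⟩
          · exact Or.inl (star_thrB h8 hd h5 h7)
          · exact Or.inr ⟨f r, Finset.mem_image_of_mem _ hr, front r hr π h8 hd,
              ρ, h9, Or.inr ⟨h5, h6⟩⟩
        · exact Or.inr ⟨f r, Finset.mem_image_of_mem _ hr,
            fun e' he' => star_thrB h4 hd h5 (h8 e' he'), h7⟩
    · rcases star_elimF h hd with ⟨h4, h5⟩ | ⟨ρ, h4, h5, h6⟩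
      · exact Or.inl (star_capF h4 hd h5)
      · rcases key _ _ h6 with h7 | ⟨r, hr, h7, h8⟩
        · exact Or.inl (star_thrF h4 hd h5 h7)
        · exact Or.inr ⟨f r, Finset.mem_image_of_mem _ hr,
            fun e' he' => star_thrF h4 hd h5 (h8 e' he'), h7⟩

theorem Cov.mul_right {N : ℕ} {x w : TR Q} (h : Cov N x w) (V : TR Q) :
    Cov N (x * V) (w * V) := h.star true V

theorem Cov.mul_left {N : ℕ} {x w : TR Q} (h : Cov N x w) (V : TR Q) :
    Cov N (V * x) (V * w) := by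
  rw [mul_def', mul_def']; exact h.star false V

theorem Cov.top [Fintype Q] (w : TR Q) : Cov (2 * Fintype.card Q) 1 w := by
  classical
  refine ⟨Finset.univ.image fun π : Bool × Q => ({π}, {π}), ?_, ?_, ?_⟩
  · refine Finset.card_image_le.trans ?_
    simp
  · intro r hr a ha b hb
    obtain ⟨π, _, rfl⟩ := Finset.mem_image.1 hr
    exact (Set.mem_singleton_iff.1 ha).trans (Set.mem_singleton_iff.1 hb).symm
  · intro a b hab
    cases hab
    exact Or.inr ⟨_, Finset.mem_image_of_mem _ (Finset.mem_univ a), rfl, rfl⟩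

/-- deterministic behaviours -/
def Det (x : TR Q) : Prop := ∀ π e e', x π e → x π e' → e = e'

theorem Det.one : Det (1 : TR Q) := fun _ _ _ h h' => h.symm.trans h'

theorem Det.mul {x y : TR Q} (hx : Det x) (hy : Det y) : Det (x * y) := by
  have hP : ∀ b, Det (two true x y b) := fun b => by unfold two; split_ifs <;> assumption
  have key : ∀ π e, Out (two true x y) π e → ∀ e', Out (two true x y) π e' → e = e' := by
    intro π e h
    induction h with
    | exit h1 h2 =>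
      intro e' h'
      cases h' with
      | exit h3 _ => exact hP _ _ _ _ h1 h3
      | bounce h3 h4 _ => exact absurd (hP _ _ _ _ h1 h3 ▸ h2) h4
    | bounce h1 h2 _ ih =>
      intro e' h'
      cases h' with
      | exit h3 h4 => exact absurd (hP _ _ _ _ h3 h1 ▸ h4) h2
      | bounce h3 _ h5 => exact ih _ (hP _ _ _ _ h3 h1 ▸ h5)
  rintro π e e' (⟨h1, h2⟩ | ⟨ρ, h1, h2, h3⟩) (⟨h4, h5⟩ | ⟨ρ', h4, h5, h6⟩)
  · exact hP _ _ _ _ h1 h4
  · exact absurd (hP _ _ _ _ h4 h1 ▸ h5) h2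
  · exact absurd (hP _ _ _ _ h1 h4 ▸ h2) h5
  · exact key _ _ h3 _ (hP _ _ _ _ h4 h1 ▸ h6)

theorem Det.eq_of_le {x y : TR Q} (hy : Det y) (h : x ≤ y) (h1 : x * y = y) (h2 : y * x = y) :
    x = y := by
  refine le_antisymm h fun π e hπ => ?_
  have h3 : star (two π.1 x y) π e := by rw [star_two_eq h1 h2]; exact hπ
  rcases star_elimB h3 rfl with ⟨h4, _⟩ | ⟨ρ, h4, _, _⟩
  · exact h4
  · exact hy _ _ _ (h _ _ h4) hπ ▸ h4

end Crest.Agent.H1Two
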